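import Vale.Agent.P141.H784.EngF
import Vale.Agent.P141.H338.Lab2

/-!
# P141, line W: the engine for a finite family of planes, with labels

`H784.engF` for families of functions with labels in `lbs L`; the label is attached to the vertex
`1`, `2` or `3`.  The third function (edge `13`) is the one in `L²`.  Own energies `own4L`, `own4R`
of `H338.Lab2`; no caps, the number of labels does not enter.
-/

namespace Vale.Agent.P141.H971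

open Finset Vale.Agent.P141.PL
open Vale.Agent.P141.H48 (EngF)
open Vale.Agent.P141.H958 (PackQ pwr own4 lbs encL encR dup shF shQ shc shs tri_enc1 tri_enc2
  tri_enc3 shF_add shs_add shc_pl sum_Icc_shift eight_four)
open Vale.Agent.P141.H736 (Path)
open Vale.Agent.P141.H498 (prf plog)
open Vale.Agent.P141.PL.H588 (Pl)
open Vale.Agent.P141.PL.H804 (bx3)
open Vale.Agent.P141.H338 (own4L own4R path_encL path_encR path_dup own4_encL own4_encR own4_dup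
  pwr_encL pwr_encR pwr_dup packQ_shQ shs_sub shF_zero encL_zero encR_zero dup_zero)

noncomputable section

open scoped Classical

/-- `prf` is homogeneous. -/
theorem prf_hom {l gA gB gC dA dB dC : ℝ} (hl : 0 < l) (hA : 0 < gA) (hB : 0 < gB) (hC : 0 < gC)
    (hdC : 0 < dC) :
    prf (l * gA) (l * gB) (l * gC) (l * dA) (l * dB) (l * dC) = l * prf gA gB gC dA dB dC := by
  unfold prf
  rw [Real.mul_rpow hl.le hA.le, Real.mul_rpow hl.le hB.le, Real.mul_rpow hl.le hdC.le]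
  have e1 : min ((l * dA) ^ 2 / (l * gA)) ((l * dB) ^ 2 / (l * gB)) / ((l * dC) ^ 2 / (l * gC)) =
      min (dA ^ 2 / gA) (dB ^ 2 / gB) / (dC ^ 2 / gC) := by
    have h1 : (l * dA) ^ 2 / (l * gA) = l * (dA ^ 2 / gA) := by
      rw [mul_pow]; field_simp
    have h2 : (l * dB) ^ 2 / (l * gB) = l * (dB ^ 2 / gB) := by
      rw [mul_pow]; field_simp
    have h3 : (l * dC) ^ 2 / (l * gC) = l * (dC ^ 2 / gC) := by
      rw [mul_pow]; field_simp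
    rw [h1, h2, h3, ← mul_min_of_nonneg _ _ hl.le, mul_div_mul_left _ _ hl.ne']
  rw [e1]
  have e2 : l ^ (1 / 4 : ℝ) * l ^ (1 / 4 : ℝ) * l ^ (1 / 2 : ℝ) = l := by
    rw [← Real.rpow_add hl, ← Real.rpow_add hl]
    norm_num
  calc l ^ (1 / 4 : ℝ) * gA ^ (1 / 4 : ℝ) * (l ^ (1 / 4 : ℝ) * gB ^ (1 / 4 : ℝ)) *
        (l ^ (1 / 2 : ℝ) * dC ^ (1 / 2 : ℝ)) *
        (1 + plog (min (dA ^ 2 / gA) (dB ^ 2 / gB) / (dC ^ 2 / gC)))
      = l ^ (1 / 4 : ℝ) * l ^ (1 / 4 : ℝ) * l ^ (1 / 2 : ℝ) *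
        (gA ^ (1 / 4 : ℝ) * gB ^ (1 / 4 : ℝ) * dC ^ (1 / 2 : ℝ) *
        (1 + plog (min (dA ^ 2 / gA) (dB ^ 2 / gB) / (dC ^ 2 / gC)))) := by ring
    _ = _ := by rw [e2]

/-- One plane on the fine grid. -/
theorem fine_eq {L N : ℕ} {s : ℕ → Finset Pt} {A B C : ℕ → ℤ → ℤ → ℝ} {g : ℕ → Pt → ℝ}
    (e : ∀ k ∈ Icc 1 N, ∀ m ∈ s k, tri (k + L) m (A k) (B k) (C k) = 8 ^ L * g k m) :
    ∑ k ∈ Icc 1 (N + L), (2 ^ k : ℝ)⁻¹ * ∑ m ∈ shs L s k,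
      |tri k m (shF L A k) (shF L B k) (shF L C k)| =
      4 ^ L * ∑ k ∈ Icc 1 N, (2 ^ k : ℝ)⁻¹ * ∑ m ∈ s k, |g k m| := by
  rw [sum_Icc_shift N L, mul_sum]
  · refine sum_congr rfl fun k hk => ?_
    rw [shF_add, shF_add, shF_add, shs_add s (mem_Icc.1 hk).1, mul_sum, mul_sum, mul_sum]
    refine sum_congr rfl fun m hm => ?_
    rw [e k hk m hm, eight_four]
  · intro k hk
    unfold shs
    rw [if_neg (by omega), sum_empty, mul_zero]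

section

variable {N : ℕ} {R : Pt} {X : Finset ℤ} {c : ℤ → ℕ → ℤ} {s : ℤ → ℕ → Finset Pt}
  {QA QB QH : ℤ → ℕ → ℤ → ℤ → Prop} {cP GA GB GH DA DB DH : ℝ} {L : ℕ}

/-- The engine on the fine grid. -/
theorem engF_fine (hc : ∀ i ∈ X, Pl (c i)) (hs : ∀ i ∈ X, ∀ k ∈ Icc 1 N, s i k ⊆ bx3 N R k (c i k))
    {A B H : ℤ → ℕ → ℤ → ℤ → ℝ} {g : ℤ → ℕ → Pt → ℝ}
    (hcP : 1 ≤ cP) (hGA : 0 < GA) (hGB : 0 < GB) (hGH : 0 < GH) (hDA : 0 < DA) (hDB : 0 < DB)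
    (hDH : 0 < DH)
    (pA : ∀ i ∈ X, Path (N + L) R.1 R.2.1 (shQ L (QA i)) (shF L (A i)) ∧ A i 0 = 0 ∧
      PackQ N R.1 R.2.1 (QA i) cP)
    (pB : ∀ i ∈ X, Path (N + L) R.2.1 R.2.2 (shQ L (QB i)) (shF L (B i)) ∧ B i 0 = 0 ∧
      PackQ N R.2.1 R.2.2 (QB i) cP)
    (pH : ∀ i ∈ X, Path (N + L) R.1 R.2.2 (shQ L (QH i)) (shF L (H i)) ∧ H i 0 = 0 ∧
      PackQ N R.1 R.2.2 (QH i) cP)
    (gA : ∑ i ∈ X, own4 (N + L) R.1 R.2.1 (shQ L (QA i)) (shF L (A i)) ≤ 4 ^ L * GA)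
    (dA : ∑ i ∈ X, pwr (N + L) R.1 R.2.1 (shQ L (QA i)) (shF L (A i)) ≤ 4 ^ L * DA)
    (gB : ∑ i ∈ X, own4 (N + L) R.2.1 R.2.2 (shQ L (QB i)) (shF L (B i)) ≤ 4 ^ L * GB)
    (dB : ∑ i ∈ X, pwr (N + L) R.2.1 R.2.2 (shQ L (QB i)) (shF L (B i)) ≤ 4 ^ L * DB)
    (gH : ∑ i ∈ X, own4 (N + L) R.1 R.2.2 (shQ L (QH i)) (shF L (H i)) ≤ 4 ^ L * GH)
    (dH : ∑ i ∈ X, pwr (N + L) R.1 R.2.2 (shQ L (QH i)) (shF L (H i)) ≤ 4 ^ L * DH)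
    (e : ∀ i ∈ X, ∀ k ∈ Icc 1 N, ∀ m ∈ s i k,
      tri (k + L) m (A i k) (B i k) (H i k) = 8 ^ L * g i k m) :
    ∑ i ∈ X, ∑ k ∈ Icc 1 N, (2 ^ k : ℝ)⁻¹ * ∑ m ∈ s i k, |g i k m| ≤
      2 * (2160 * 4400) * cP * prf GA GB GH DA DB DH := by
  have h4 : (0 : ℝ) < 4 ^ L := by positivity
  have h := H784.engF (N + L) R X (fun i => shc L (c i)) (fun i hi => shc_pl (hc i hi))
    (fun i => shs L (s i)) (fun i hi => shs_sub (hs i hi)) (fun i => shF L (A i))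
    (fun i => shF L (B i)) (fun i => shF L (H i)) (fun i => shQ L (QA i)) (fun i => shQ L (QB i))
    (fun i => shQ L (QH i)) cP (4 ^ L * GA) (4 ^ L * GB) (4 ^ L * GH) (4 ^ L * DA) (4 ^ L * DB)
    (4 ^ L * DH) hcP (by positivity) (by positivity) (by positivity) (by positivity)
    (by positivity) (by positivity)
    (fun i hi => ⟨(pA i hi).1, shF_zero (pA i hi).2.1, packQ_shQ (by linarith) (pA i hi).2.2⟩)
    (fun i hi => ⟨(pB i hi).1, shF_zero (pB i hi).2.1, packQ_shQ (by linarith) (pB i hi).2.2⟩)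
    (fun i hi => ⟨(pH i hi).1, shF_zero (pH i hi).2.1, packQ_shQ (by linarith) (pH i hi).2.2⟩)
    gA dA gB dB gH dH
  rw [prf_hom h4 hGA hGB hGH hDH] at h
  have h2 : ∑ i ∈ X, ∑ k ∈ Icc 1 (N + L), (2 ^ k : ℝ)⁻¹ * ∑ m ∈ shs L (s i) k,
      |tri k m (shF L (A i) k) (shF L (B i) k) (shF L (H i) k)| =
      4 ^ L * ∑ i ∈ X, ∑ k ∈ Icc 1 N, (2 ^ k : ℝ)⁻¹ * ∑ m ∈ s i k, |g i k m| := by
    rw [mul_sum]
    exact sum_congr rfl fun i hi => fine_eq (e i hi)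
  rw [h2] at h
  have h3 : 4 ^ L * ∑ i ∈ X, ∑ k ∈ Icc 1 N, (2 ^ k : ℝ)⁻¹ * ∑ m ∈ s i k, |g i k m| ≤
      4 ^ L * (2 * (2160 * 4400) * cP * prf GA GB GH DA DB DH) :=
    h.trans (le_of_eq (by ring))
  exact le_of_mul_le_mul_left h3 h4

/-- the data of a labelled family, label on the left variable -/
structure FamL (L N : ℕ) (R S : ℤ) (X : Finset ℤ) (Q : ℤ → ℕ → ℤ → ℤ → Prop)
    (A : ℤ → ℕ → ℤ → ℤ → ℤ → ℝ) (cP G D : ℝ) : Prop where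
  path : ∀ i ∈ X, ∀ l ∈ lbs L, Path N R S (Q i) (fun k => A i k l)
  zero : ∀ i ∈ X, A i 0 = 0
  pack : ∀ i ∈ X, PackQ N R S (Q i) cP
  own : ∑ i ∈ X, own4L L N R S (Q i) (A i) ≤ G
  pow : ∑ i ∈ X, ∑ l ∈ lbs L, pwr N R S (Q i) (fun k => A i k l) ≤ D

/-- the data of a labelled family, label on the right variable -/
structure FamR (L N : ℕ) (R S : ℤ) (X : Finset ℤ) (Q : ℤ → ℕ → ℤ → ℤ → Prop)
    (A : ℤ → ℕ → ℤ → ℤ → ℤ → ℝ) (cP G D : ℝ) : Prop where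
  path : ∀ i ∈ X, ∀ l ∈ lbs L, Path N R S (Q i) (fun k => A i k l)
  zero : ∀ i ∈ X, A i 0 = 0
  pack : ∀ i ∈ X, PackQ N R S (Q i) cP
  own : ∑ i ∈ X, own4R L N R S (Q i) (A i) ≤ G
  pow : ∑ i ∈ X, ∑ l ∈ lbs L, pwr N R S (Q i) (fun k => A i k l) ≤ D

/-- the data of a scalar family -/
structure Fam0 (N : ℕ) (R S : ℤ) (X : Finset ℤ) (Q : ℤ → ℕ → ℤ → ℤ → Prop)
    (A : ℤ → ℕ → ℤ → ℤ → ℝ) (cP G D : ℝ) : Prop where
  path : ∀ i ∈ X, Path N R S (Q i) (A i)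
  zero : ∀ i ∈ X, A i 0 = 0
  pack : ∀ i ∈ X, PackQ N R S (Q i) cP
  own : ∑ i ∈ X, own4 N R S (Q i) (A i) ≤ G
  pow : ∑ i ∈ X, pwr N R S (Q i) (A i) ≤ D

variable {R' S' : ℤ} {Q : ℤ → ℕ → ℤ → ℤ → Prop} {G D : ℝ}

theorem FamL.fp {A : ℤ → ℕ → ℤ → ℤ → ℤ → ℝ} (h : FamL L N R' S' X Q A cP G D) :
    ∀ i ∈ X, Path (N + L) R' S' (shQ L (Q i)) (shF L fun k => encL L (A i k)) ∧
      (fun k => encL L (A i k)) 0 = 0 ∧ PackQ N R' S' (Q i) cP := fun i hi =>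
  ⟨path_encL (h.zero i hi) (h.path i hi), by simp only [h.zero i hi, encL_zero], h.pack i hi⟩

theorem FamL.fo {A : ℤ → ℕ → ℤ → ℤ → ℤ → ℝ} (h : FamL L N R' S' X Q A cP G D) :
    ∑ i ∈ X, own4 (N + L) R' S' (shQ L (Q i)) (shF L fun k => encL L (A i k)) ≤ 4 ^ L * G := by
  simp only [own4_encL, ← mul_sum]
  exact mul_le_mul_of_nonneg_left h.own (by positivity)

theorem FamL.fd {A : ℤ → ℕ → ℤ → ℤ → ℤ → ℝ} (h : FamL L N R' S' X Q A cP G D) :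
    ∑ i ∈ X, pwr (N + L) R' S' (shQ L (Q i)) (shF L fun k => encL L (A i k)) ≤ 4 ^ L * D := by
  simp only [pwr_encL]
  rw [← mul_sum]
  exact mul_le_mul_of_nonneg_left h.pow (by positivity)

theorem FamR.fp {A : ℤ → ℕ → ℤ → ℤ → ℤ → ℝ} (h : FamR L N R' S' X Q A cP G D) :
    ∀ i ∈ X, Path (N + L) R' S' (shQ L (Q i)) (shF L fun k => encR L (A i k)) ∧
      (fun k => encR L (A i k)) 0 = 0 ∧ PackQ N R' S' (Q i) cP := fun i hi =>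
  ⟨path_encR (h.zero i hi) (h.path i hi), by simp only [h.zero i hi, encR_zero], h.pack i hi⟩

theorem FamR.fo {A : ℤ → ℕ → ℤ → ℤ → ℤ → ℝ} (h : FamR L N R' S' X Q A cP G D) :
    ∑ i ∈ X, own4 (N + L) R' S' (shQ L (Q i)) (shF L fun k => encR L (A i k)) ≤ 4 ^ L * G := by
  simp only [own4_encR, ← mul_sum]
  exact mul_le_mul_of_nonneg_left h.own (by positivity)

theorem FamR.fd {A : ℤ → ℕ → ℤ → ℤ → ℤ → ℝ} (h : FamR L N R' S' X Q A cP G D) :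
    ∑ i ∈ X, pwr (N + L) R' S' (shQ L (Q i)) (shF L fun k => encR L (A i k)) ≤ 4 ^ L * D := by
  simp only [pwr_encR]
  rw [← mul_sum]
  exact mul_le_mul_of_nonneg_left h.pow (by positivity)

theorem Fam0.fp {A : ℤ → ℕ → ℤ → ℤ → ℝ} (h : Fam0 N R' S' X Q A cP G D) :
    ∀ i ∈ X, Path (N + L) R' S' (shQ L (Q i)) (shF L fun k => dup L (A i k)) ∧
      (fun k => dup L (A i k)) 0 = 0 ∧ PackQ N R' S' (Q i) cP := fun i hi =>
  ⟨path_dup (h.zero i hi) (h.path i hi), by simp only [h.zero i hi, dup_zero], h.pack i hi⟩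

theorem Fam0.fo {A : ℤ → ℕ → ℤ → ℤ → ℝ} (h : Fam0 N R' S' X Q A cP G D) :
    ∑ i ∈ X, own4 (N + L) R' S' (shQ L (Q i)) (shF L fun k => dup L (A i k)) ≤ 4 ^ L * G := by
  simp only [own4_dup, ← mul_sum]
  exact mul_le_mul_of_nonneg_left h.own (by positivity)

theorem Fam0.fd {A : ℤ → ℕ → ℤ → ℤ → ℝ} (h : Fam0 N R' S' X Q A cP G D) :
    ∑ i ∈ X, pwr (N + L) R' S' (shQ L (Q i)) (shF L fun k => dup L (A i k)) ≤ 4 ^ L * D := by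
  simp only [pwr_dup]
  rw [← mul_sum]
  exact mul_le_mul_of_nonneg_left h.pow (by positivity)

variable (hc : ∀ i ∈ X, Pl (c i)) (hs : ∀ i ∈ X, ∀ k ∈ Icc 1 N, s i k ⊆ bx3 N R k (c i k))
    (hcP : 1 ≤ cP) (hGA : 0 < GA) (hGB : 0 < GB) (hGH : 0 < GH) (hDA : 0 < DA) (hDB : 0 < DB)
    (hDH : 0 < DH)

include hc hs hcP hGA hGB hGH hDA hDB hDH

/-- **The engine, label vertex 1** (labels on the edges `12` and `13`). -/
theorem engL1 {A H : ℤ → ℕ → ℤ → ℤ → ℤ → ℝ} {B : ℤ → ℕ → ℤ → ℤ → ℝ}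
    (hA : FamL L N R.1 R.2.1 X QA A cP GA DA) (hB : Fam0 N R.2.1 R.2.2 X QB B cP GB DB)
    (hH : FamL L N R.1 R.2.2 X QH H cP GH DH) :
    ∑ i ∈ X, ∑ k ∈ Icc 1 N, (2 ^ k : ℝ)⁻¹ * ∑ m ∈ s i k,
      |∑ l ∈ lbs L, tri k m (A i k l) (B i k) (H i k l)| ≤
      2 * (2160 * 4400) * cP * prf GA GB GH DA DB DH :=
  engF_fine (A := fun i k => encL L (A i k)) (B := fun i k => dup L (B i k))
    (H := fun i k => encL L (H i k)) hc hs hcP hGA hGB hGH hDA hDB hDH hA.fp hB.fp hH.fp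
    hA.fo hA.fd hB.fo hB.fd hH.fo hH.fd
    fun i _ k hk m _ => tri_enc1 (mem_Icc.1 hk).1 m (A i k) (H i k) (B i k)

/-- **The engine, label vertex 2** (labels on the edges `12` and `23`; the `L²` slot is the edge
opposite to the label). -/
theorem engL2 {A B : ℤ → ℕ → ℤ → ℤ → ℤ → ℝ} {H : ℤ → ℕ → ℤ → ℤ → ℝ}
    (hA : FamR L N R.1 R.2.1 X QA A cP GA DA) (hB : FamL L N R.2.1 R.2.2 X QB B cP GB DB)
    (hH : Fam0 N R.1 R.2.2 X QH H cP GH DH) :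
    ∑ i ∈ X, ∑ k ∈ Icc 1 N, (2 ^ k : ℝ)⁻¹ * ∑ m ∈ s i k,
      |∑ l ∈ lbs L, tri k m (A i k l) (B i k l) (H i k)| ≤
      2 * (2160 * 4400) * cP * prf GA GB GH DA DB DH :=
  engF_fine (A := fun i k => encR L (A i k)) (B := fun i k => encL L (B i k))
    (H := fun i k => dup L (H i k)) hc hs hcP hGA hGB hGH hDA hDB hDH hA.fp hB.fp hH.fp
    hA.fo hA.fd hB.fo hB.fd hH.fo hH.fd
    fun i _ k hk m _ => tri_enc2 (mem_Icc.1 hk).1 m (A i k) (B i k) (H i k)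

/-- **The engine, label vertex 3** (labels on the edges `23` and `13`). -/
theorem engL3 {B H : ℤ → ℕ → ℤ → ℤ → ℤ → ℝ} {A : ℤ → ℕ → ℤ → ℤ → ℝ}
    (hA : Fam0 N R.1 R.2.1 X QA A cP GA DA) (hB : FamR L N R.2.1 R.2.2 X QB B cP GB DB)
    (hH : FamR L N R.1 R.2.2 X QH H cP GH DH) :
    ∑ i ∈ X, ∑ k ∈ Icc 1 N, (2 ^ k : ℝ)⁻¹ * ∑ m ∈ s i k,
      |∑ l ∈ lbs L, tri k m (A i k) (B i k l) (H i k l)| ≤
      2 * (2160 * 4400) * cP * prf GA GB GH DA DB DH :=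
  engF_fine (A := fun i k => dup L (A i k)) (B := fun i k => encR L (B i k))
    (H := fun i k => encR L (H i k)) hc hs hcP hGA hGB hGH hDA hDB hDH hA.fp hB.fp hH.fp
    hA.fo hA.fd hB.fo hB.fd hH.fo hH.fd
    fun i _ k hk m _ => tri_enc3 (mem_Icc.1 hk).1 m (A i k) (B i k) (H i k)

end

end

end Vale.Agent.P141.H971
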