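import Vale.Agent.P141.H971.Cen
import Vale.Agent.P141.H694.Flat
import Vale.Agent.P141.H573.MomPerm

/-!
# P141, CE, C2: from generic uniformity (centre atoms) to the gain of the fourth moment

`GenU ρ δ e A B C G`: `G` pairs with every centre atom (split side `A`, fibre `C`) whose potentials
are at most `δ² h p` by at most `ρ δ e h^(1/2) p^(5/2)`, `ρ` times the critical value.

* `mo4_light`: gauges with light rows, `mo4 ≤ (10369 κ + ρ κ^(-3/2)) * (δ² e h p³)`;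
* `mo4_flat_gain`: every bounded gauge is a sum of two pieces, one with light rows and one with
  light columns;
* `mo4_gain`: every gauge, `mo4 ≤ C (κ + ρ κ^(-3/2)) δ² e |a|₂² |a|₄²`.
-/

namespace Vale.Agent.P141.H971

noncomputable section

open scoped BigOperators
open Finset Vale.Agent.P141.PL.H315 Vale.Agent.P141.H550 Vale.Agent.P141.H769
open Vale.Agent.P141.H834 (UnifP LineB gf)
open Vale.Agent.P141.H922 (n2 n4 nN n2_nonneg n4_nonneg nN_nonneg n2_sq n4_sq n4_four nN_sq)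
open Vale.Agent.P141.H555
open Vale.Agent.P141.H573 (tr)

/-- generic uniformity at the critical potential: split side `A` -/
def GenU (ρ δ e : ℝ) (A B C : Finset ℤ) (G : ℤ × ℤ × ℤ → ℝ) : Prop :=
  ∀ (a : ℤ → ℤ → ℝ) (h p : ℝ), 0 ≤ h → 0 ≤ p →
    ∀ (κ : Type) [Fintype κ] (u v : ℤ → ℤ → EuclideanSpace ℝ κ),
      Cen A B C h p e (δ ^ 2 * (h * p)) a u v →
      (avg (A ×ˢ B ×ˢ C) fun q => G q * cen a u v q) ≤ ρ * (δ * e * (√h * (p ^ 2 * √p)))

section

variable {A B C : Finset ℤ} {G : ℤ × ℤ × ℤ → ℝ} {e δ : ℝ}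

/-- arithmetic of the three levels -/
theorem level_arith {κ ρ δ e h p σ S : ℝ} (hκ : 0 < κ) (_hδ : 0 < δ) (hh : 0 < h) (hp : 0 < p)
    (hσ : σ = √κ * (δ * √(h * p))) (hS : S = (√κ)⁻¹ * (δ * √(h * p))) :
    σ * S = δ ^ 2 * (h * p) ∧ σ ^ 2 = κ * (δ ^ 2 * (h * p)) ∧
      S ^ 2 = κ⁻¹ * (δ ^ 2 * (h * p)) ∧
      ρ * (δ * e * (√h * (p ^ 2 * √p))) = σ * (ρ * (√κ)⁻¹ * (e * p ^ 2)) := by
  have h1 : √(h * p) ^ 2 = h * p := Real.sq_sqrt (by positivity)
  have hk0 : 0 < √κ := Real.sqrt_pos.2 hκ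
  have h2 : √κ * (√κ)⁻¹ = 1 := mul_inv_cancel₀ hk0.ne'
  have h3 : √κ ^ 2 = κ := Real.sq_sqrt hκ.le
  have h4 : ((√κ)⁻¹) ^ 2 = κ⁻¹ := by rw [inv_pow, h3]
  have h5 : √(h * p) = √h * √p := Real.sqrt_mul hh.le p
  refine ⟨?_, ?_, ?_, ?_⟩
  · rw [hσ, hS]
    calc √κ * (δ * √(h * p)) * ((√κ)⁻¹ * (δ * √(h * p))) =
        (√κ * (√κ)⁻¹) * (δ ^ 2 * √(h * p) ^ 2) := by ring
      _ = _ := by rw [h2, h1, one_mul]
  · rw [hσ]
    calc (√κ * (δ * √(h * p))) ^ 2 = √κ ^ 2 * (δ ^ 2 * √(h * p) ^ 2) := by ring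
      _ = _ := by rw [h3, h1]
  · rw [hS]
    calc ((√κ)⁻¹ * (δ * √(h * p))) ^ 2 = ((√κ)⁻¹) ^ 2 * (δ ^ 2 * √(h * p) ^ 2) := by ring
      _ = _ := by rw [h4, h1]
  · rw [hσ, h5]
    calc ρ * (δ * e * (√h * (p ^ 2 * √p))) =
        (√κ * (√κ)⁻¹) * (ρ * (δ * e * (√h * (p ^ 2 * √p)))) := by rw [h2, one_mul]
      _ = _ := by ring

/-- **Gauges with light rows.** -/
theorem mo4_light {ρ κ : ℝ} (hρ : 0 ≤ ρ) (hκ : 0 < κ) (hκ1 : κ ≤ 1) (hδ : 0 ≤ δ) (he : 0 ≤ e)
    (hA : A.Nonempty) (hB : B.Nonempty) (hU : UnifP δ A B C G) (hL : LineB e A B C G)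
    (hG : GenU ρ δ e A B C G) (a : ℤ → ℤ → ℝ) {h p : ℝ} (hh : 0 ≤ h)
    (ha : ∀ x ∈ A, ∀ y ∈ B, |a x y| ≤ h) (hp : n2 (A ×ˢ B) (gf a) ≤ p)
    (hr : ∀ x ∈ A, (avg B fun y => a x y ^ 2) ≤ h * p) :
    mo4 A B C a G ≤ (10369 * κ + ρ * (κ⁻¹ * (√κ)⁻¹)) * (δ ^ 2 * e * (h * p ^ 3)) := by
  have hp0 : 0 ≤ p := (n2_nonneg _ _).trans hp
  have hgain : 0 ≤ 10369 * κ + ρ * (κ⁻¹ * (√κ)⁻¹) := by positivity
  by_cases h0 : δ * h * p = 0
  · -- degenerate case
    have h1 := H834.mo4_flat hδ he hA hB hU hL a h hh ha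
    have h2 : h * n2 (A ×ˢ B) (gf a) ^ 3 ≤ h * p ^ 3 :=
      mul_le_mul_of_nonneg_left (pow_le_pow_left₀ (n2_nonneg _ _) hp 3) hh
    have h3 : 500 * (δ ^ 2 * e) * (h * n2 (A ×ˢ B) (gf a) ^ 3) ≤ 500 * (δ ^ 2 * e) * (h * p ^ 3) :=
      mul_le_mul_of_nonneg_left h2 (by positivity)
    have h4 : 500 * (δ ^ 2 * e) * (h * p ^ 3) = 0 := by
      have : 500 * (δ ^ 2 * e) * (h * p ^ 3) = 500 * δ * e * p ^ 2 * (δ * h * p) := by ring
      rw [this, h0, mul_zero]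
    have h5 : 0 ≤ (10369 * κ + ρ * (κ⁻¹ * (√κ)⁻¹)) * (δ ^ 2 * e * (h * p ^ 3)) := by positivity
    linarith
  have hδ' : 0 < δ := lt_of_le_of_ne hδ fun t => h0 (by rw [← t]; ring)
  have hh' : 0 < h := lt_of_le_of_ne hh fun t => h0 (by rw [← t]; ring)
  have hp' : 0 < p := lt_of_le_of_ne hp0 fun t => h0 (by rw [← t]; ring)
  obtain ⟨s, φ, ψ, H⟩ := exists_isSvdF hA hB (sl a G)
  set σ : ℝ := √κ * (δ * √(h * p)) with hσd
  set S : ℝ := (√κ)⁻¹ * (δ * √(h * p)) with hSd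
  have hk0 : 0 < √κ := Real.sqrt_pos.2 hκ
  have hhp : 0 < √(h * p) := Real.sqrt_pos.2 (by positivity)
  have hσ : 0 < σ := by positivity
  have hS : 0 < S := by positivity
  have hσS : σ ≤ S := by
    have h1 : √κ ≤ 1 := Real.sqrt_le_one.mpr hκ1
    have h2 : 1 ≤ (√κ)⁻¹ := one_le_inv_iff₀.mpr ⟨hk0, h1⟩
    exact mul_le_mul_of_nonneg_right (h1.trans h2) (by positivity)
  obtain ⟨e1, e2, e3, e4⟩ := level_arith (κ := κ) (ρ := ρ) (e := e) hκ hδ' hh' hp' hσd hSd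
  have hcen : Cen A B C h p e (δ ^ 2 * (h * p)) a (uF H σ (lvI s σ S)) (vF H σ (lvI s σ S)) := by
    rw [← e1]
    exact cen_of_svd H hL he ha hp hr hσ.le hS.le
  have hc := hG a h p hh hp0 A _ _ hcen
  rw [e4] at hc
  have h6 : ∀ τ, 0 < τ → τ ^ 6 * H834.cnt C s τ ≤ 486 * (δ ^ 2 * (h * p)) ^ 2 * (e * p ^ 2) := by
    intro τ hτ
    have k1 := H694.cnt6' hδ he hh hU hL ha H (L := hiI s τ) hτ fun z i hi => mem_hiI.1 hi
    have k2 : H694.num C (hiI s τ) = H834.cnt C s τ := num_hiI C s τ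
    rw [k2] at k1
    refine k1.trans ?_
    unfold H694.D2 H694.E0
    have k3 := n2_nonneg (A ×ˢ B) (gf a)
    have k4 : δ ^ 2 * h * n2 (A ×ˢ B) (gf a) ≤ δ ^ 2 * (h * p) := by
      rw [← mul_assoc]; exact mul_le_mul_of_nonneg_left hp (by positivity)
    have k5 : n2 (A ×ˢ B) (gf a) ^ 2 ≤ p ^ 2 := pow_le_pow_left₀ k3 hp 2
    gcongr
  have key := mo4_level H hL he hp (by positivity) h6 hσ hσS hc
  refine key.trans (le_of_eq ?_)
  rw [e2, e3]
  have hDn : δ ^ 2 * (h * p) ≠ 0 := by positivity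
  have hkn : κ ≠ 0 := hκ.ne'
  have e5 : 64 / 3 * (486 * (δ ^ 2 * (h * p)) ^ 2 * (e * p ^ 2)) / (κ⁻¹ * (δ ^ 2 * (h * p))) =
      10368 * κ * (δ ^ 2 * (h * p)) * (e * p ^ 2) := by
    field_simp
    ring
  rw [e5]
  ring

/-- transposing the box swaps the sides -/
theorem unifP_tr (h : UnifP δ A B C G) : UnifP δ B A C fun q => G (q.2.1, q.1, q.2.2) :=
  H573.unifP_213 h

theorem n2_tr_gf (a : ℤ → ℤ → ℝ) : n2 (B ×ˢ A) (gf (tr a)) = n2 (A ×ˢ B) (gf a) := H573.n2_tr A B a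

/-- **Every bounded gauge**: two pieces. -/
theorem mo4_flat_gain {ρ κ : ℝ} (hρ : 0 ≤ ρ) (hκ : 0 < κ) (hκ1 : κ ≤ 1) (hδ : 0 ≤ δ) (he : 0 ≤ e)
    (hA : A.Nonempty) (hB : B.Nonempty) (hU : UnifP δ A B C G) (hL : LineB e A B C G)
    (hG : GenU ρ δ e A B C G) (hG' : GenU ρ δ e B A C fun q => G (q.2.1, q.1, q.2.2))
    (a : ℤ → ℤ → ℝ) {h : ℝ} (hh : 0 ≤ h) (ha : ∀ x ∈ A, ∀ y ∈ B, |a x y| ≤ h) :
    mo4 A B C a G ≤ 16 * (10369 * κ + ρ * (κ⁻¹ * (√κ)⁻¹)) * (δ ^ 2 * e) *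
      (h * n2 (A ×ˢ B) (gf a) ^ 3) := by
  classical
  set p := n2 (A ×ˢ B) (gf a) with hp
  have hp0 : 0 ≤ p := n2_nonneg _ _
  set g := 10369 * κ + ρ * (κ⁻¹ * (√κ)⁻¹) with hg
  have hg0 : 0 ≤ g := by positivity
  set R : ℝ := g * (δ ^ 2 * e * (h * p ^ 3)) with hR
  have hR0 : 0 ≤ R := by positivity
  -- the heavy rows
  set D : ℤ → Prop := fun x => h * p < avg B fun y => a x y ^ 2 with hD
  set b : Bool → ℤ → ℤ → ℝ := fun i x y => if i = true then (if D x then 0 else a x y)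
    else (if D x then a x y else 0) with hb
  have hab : ∀ x ∈ A, ∀ y ∈ B, a x y = ∑ i ∈ (univ : Finset Bool), b i x y := by
    intro x _ y _
    simp only [Fintype.sum_bool, hb]
    by_cases hx : D x <;> simp [hx]
  have hble : ∀ i x y, |b i x y| ≤ |a x y| := by
    intro i x y
    cases i <;> by_cases hx : D x <;> simp [hb, hx]
  have hb2 : ∀ i x y, b i x y ^ 2 ≤ a x y ^ 2 := fun i x y => by
    rw [← sq_abs, ← sq_abs (a x y)]
    exact pow_le_pow_left₀ (abs_nonneg _) (hble i x y) 2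
  have hbn : ∀ i, n2 (A ×ˢ B) (gf (b i)) ≤ p := by
    intro i
    refine Real.sqrt_le_sqrt (avg_mono fun r _ => hb2 i r.1 r.2)
  have hba : ∀ i, ∀ x ∈ A, ∀ y ∈ B, |b i x y| ≤ h := fun i x hx y hy =>
    (hble i x y).trans (ha x hx y hy)
  -- light rows
  have k1 : mo4 A B C (b true) G ≤ R := by
    refine mo4_light hρ hκ hκ1 hδ he hA hB hU hL hG (b true) hh (hba true) (hbn true) ?_
    intro x _
    by_cases hx : D x
    · have : (avg B fun y => b true x y ^ 2) = 0 := by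
        have e1 : (avg B fun y => b true x y ^ 2) = avg B fun _ => (0 : ℝ) :=
          avg_congr fun y _ => by simp [hb, hx]
        rw [e1]; unfold avg; simp
      rw [this]; positivity
    · have e1 : (avg B fun y => b true x y ^ 2) = avg B fun y => a x y ^ 2 :=
        avg_congr fun y _ => by simp [hb, hx]
      rw [e1]; exact not_lt.1 hx
  -- light columns
  have k2 : mo4 A B C (b false) G ≤ R := by
    rw [H573.mo4_transpose]
    refine mo4_light hρ hκ hκ1 hδ he hB hA (unifP_tr hU) (H573.lineB_213 hL) hG'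
      (tr (b false)) hh (fun y hy x hx => hba false x hx y hy) ?_ ?_
    · rw [n2_tr_gf]; exact hbn false
    · intro y hy
      -- `|D| ≤ p / h`
      show (avg A fun x => b false x y ^ 2) ≤ h * p
      have e1 : h * (h * (avg A fun x => if D x then (p : ℝ) else 0)) ≤ h * (p * p) := by
        have e2 : (avg A fun x => avg B fun y => a x y ^ 2) = p ^ 2 := by
          rw [hp, n2_sq, avg_prod]; rfl
        have e3 : (avg A fun x => if D x then h * p else 0) ≤ p ^ 2 := by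
          rw [← e2]
          refine avg_mono fun x _ => ?_
          split_ifs with hx
          · exact le_of_lt hx
          · exact avg_nonneg fun _ _ => sq_nonneg _
        have e4 : (avg A fun x => if D x then h * p else 0) =
            h * avg A fun x => if D x then (p : ℝ) else 0 := by
          rw [← avg_mul_left]
          exact avg_congr fun x _ => by split_ifs <;> ring
        rw [e4] at e3
        have := mul_le_mul_of_nonneg_left e3 hh
        linarith [sq p]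
      have e5 : (avg A fun x => b false x y ^ 2) ≤ avg A fun x => if D x then h ^ 2 else 0 := by
        refine avg_mono fun x hx => ?_
        by_cases hd : D x
        · rw [if_pos hd]
          have := hba false x hx y hy
          rw [← sq_abs]
          exact pow_le_pow_left₀ (abs_nonneg _) this 2
        · rw [if_neg hd]; simp [hb, hd]
      refine e5.trans ?_
      rcases hp0.eq_or_lt with hp1 | hp1
      · -- no heavy rows
        have : ∀ x ∈ A, (if D x then h ^ 2 else (0 : ℝ)) = 0 := by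
          intro x hx
          refine if_neg fun hd => ?_
          have e6 : (avg A fun x => avg B fun y => a x y ^ 2) = 0 := by
            have : (avg A fun x => avg B fun y => a x y ^ 2) = p ^ 2 := by
              rw [hp, n2_sq, avg_prod]; rfl
            rw [this, ← hp1]; ring
          have e7 : (avg B fun y => a x y ^ 2) = 0 := by
            unfold avg at e6
            have hc : (0 : ℝ) < (A.card : ℝ) := by exact_mod_cast card_pos.2 ⟨x, hx⟩
            rcases mul_eq_zero.1 e6 with h | h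
            · exact absurd h (inv_ne_zero hc.ne')
            · exact (sum_eq_zero_iff_of_nonneg fun x _ =>
                avg_nonneg (Q := B) fun _ _ => sq_nonneg _).1 h x hx
          have hd' : h * p < avg B fun y => a x y ^ 2 := hd
          rw [e7, ← hp1, mul_zero] at hd'
          exact lt_irrefl _ hd'
        rw [avg_congr this]
        have : (avg A fun _ => (0 : ℝ)) = 0 := by unfold avg; simp
        rw [this]; positivity
      · have e6 : (avg A fun x => if D x then h ^ 2 else (0 : ℝ)) * p =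
            h * (h * (avg A fun x => if D x then (p : ℝ) else 0)) := by
          rw [mul_comm _ p, ← avg_mul_left, ← avg_mul_left, ← avg_mul_left]
          exact avg_congr fun x _ => by split_ifs <;> ring
        have e7 : (avg A fun x => if D x then h ^ 2 else (0 : ℝ)) * p ≤ (h * p) * p := by
          rw [e6]; linarith
        exact le_of_mul_le_mul_right e7 hp1
  -- the triangle inequality
  have t1 := H573.mo4_sum_le univ A B C G a b hab
  rw [Fintype.sum_bool] at t1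
  have t2 : √√(mo4 A B C a G) ≤ 2 * √√R := by
    have a1 : √√(mo4 A B C (b true) G) ≤ √√R := Real.sqrt_le_sqrt (Real.sqrt_le_sqrt k1)
    have a2 : √√(mo4 A B C (b false) G) ≤ √√R := Real.sqrt_le_sqrt (Real.sqrt_le_sqrt k2)
    linarith
  have t3 : √√(mo4 A B C a G) ^ 4 ≤ (2 * √√R) ^ 4 :=
    pow_le_pow_left₀ (Real.sqrt_nonneg _) t2 4
  have t4 : ∀ x : ℝ, 0 ≤ x → √√x ^ 4 = x := fun x hx => by
    rw [show √√x ^ 4 = (√√x ^ 2) ^ 2 by ring, Real.sq_sqrt (Real.sqrt_nonneg _), Real.sq_sqrt hx]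
  rw [t4 _ (mo4_nonneg ..), mul_pow, t4 _ hR0] at t3
  refine t3.trans (le_of_eq ?_)
  rw [hR]; ring

/-- **(CF) on a box**: the gain of the fourth moment for every gauge. -/
theorem mo4_gain {ρ κ : ℝ} (hρ : 0 ≤ ρ) (hκ : 0 < κ) (hκ1 : κ ≤ 1) (hδ : 0 ≤ δ) (he : 0 ≤ e)
    (hA : A.Nonempty) (hB : B.Nonempty) (hU : UnifP δ A B C G) (hL : LineB e A B C G)
    (hG : GenU ρ δ e A B C G) (hG' : GenU ρ δ e B A C fun q => G (q.2.1, q.1, q.2.2))
    (a : ℤ → ℤ → ℝ) :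
    mo4 A B C a G ≤ 7680 * (10369 * κ + ρ * (κ⁻¹ * (√κ)⁻¹)) * (δ ^ 2 * e) *
      (n2 (A ×ˢ B) (gf a) * n4 (A ×ˢ B) (gf a)) ^ 2 := by
  have hg : 0 ≤ 16 * (10369 * κ + ρ * (κ⁻¹ * (√κ)⁻¹)) * (δ ^ 2 * e) := by positivity
  have h := H573.mo4_pair (A := A) (B := B) (C := C) (G := G)
    (k := 16 * (10369 * κ + ρ * (κ⁻¹ * (√κ)⁻¹)) * (δ ^ 2 * e)) hg
    (fun a h hh ha => mo4_flat_gain hρ hκ hκ1 hδ he hA hB hU hL hG hG' a hh ha) a
  refine h.trans (le_of_eq ?_)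
  show 480 * (16 * (10369 * κ + ρ * (κ⁻¹ * (√κ)⁻¹)) * (δ ^ 2 * e) *
    (n2 (A ×ˢ B) (gf a) ^ 2 * n4 (A ×ˢ B) (gf a) ^ 2)) = _
  ring

end

end

end Vale.Agent.P141.H971
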