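import Vale.Agent.P141.H555.Fam
import Vale.Agent.P141.H834.MomF

/-!
# P141, CE, C2: centre data on a box, from the singular level of a gauged slice

`Cen A B C h p e K a u v`: gauge `a` on `A × B` (`|a| ≤ h`, `|a|₂ ≤ p`, rows `≤ h p`), vector edges
`u` on (fibre `C`, `A`) and `v` on (fibre, `B`): heights `h² e`, energies `e p²`, columns of `u` at
most `e h p`, potentials at most `K` at every point of the fibre.

`cen_of_svd`: the level `σ ≤ s < S` of `a G` gives centre data with `K = σ S`, and the pairing of `G`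
with `σ⁻¹ a ⟨u, v⟩` is the energy of the level.  `mo4_level`: a bound of this pairing bounds the
fourth moment.
-/

namespace Vale.Agent.P141.H971

noncomputable section

open scoped BigOperators
open Finset Vale.Agent.P141.PL.H315 Vale.Agent.P141.H550 Vale.Agent.P141.H769
open Vale.Agent.P141.H834 (UnifP LineB gf)
open Vale.Agent.P141.H922 (n2 n4 nN n2_nonneg n4_nonneg nN_nonneg n2_sq n4_sq n4_four nN_sq)
open Vale.Agent.P141.H555

/-- centre data on a box -/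
structure Cen {V : Type*} [NormedAddCommGroup V] [InnerProductSpace ℝ V] (A B C : Finset ℤ)
    (h p e K : ℝ) (a : ℤ → ℤ → ℝ) (u v : ℤ → ℤ → V) : Prop where
  /-- height of the gauge -/
  a_le : ∀ x ∈ A, ∀ y ∈ B, |a x y| ≤ h
  /-- energy of the gauge -/
  a_n2 : n2 (A ×ˢ B) (gf a) ≤ p
  /-- rows of the gauge at the split vertex -/
  a_row : ∀ x ∈ A, (avg B fun y => a x y ^ 2) ≤ h * p
  /-- heights of the vector edges -/
  u_le : ∀ z ∈ C, ∀ x ∈ A, ‖u z x‖ ^ 2 ≤ h ^ 2 * e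
  v_le : ∀ z ∈ C, ∀ y ∈ B, ‖v z y‖ ^ 2 ≤ h ^ 2 * e
  /-- energies of the vector edges -/
  u_en : (avg C fun z => avg A fun x => ‖u z x‖ ^ 2) ≤ e * p ^ 2
  v_en : (avg C fun z => avg B fun y => ‖v z y‖ ^ 2) ≤ e * p ^ 2
  /-- columns of the split edge -/
  u_col : ∀ x ∈ A, (avg C fun z => ‖u z x‖ ^ 2) ≤ e * (h * p)
  /-- potentials at every point of the fibre -/
  u_pot : ∀ z ∈ C, ∀ w : V, (avg A fun x => (inner ℝ (u z x) w) ^ 2) ≤ K * ‖w‖ ^ 2
  v_pot : ∀ z ∈ C, ∀ w : V, (avg B fun y => (inner ℝ (v z y) w) ^ 2) ≤ K * ‖w‖ ^ 2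

/-- the value of a centre atom: gauge times inner product, `z` the fibre variable -/
def cen {V : Type*} [NormedAddCommGroup V] [InnerProductSpace ℝ V] (a : ℤ → ℤ → ℝ)
    (u v : ℤ → ℤ → V) (q : ℤ × ℤ × ℤ) : ℝ :=
  a q.1 q.2.1 * inner ℝ (u q.2.2 q.1) (v q.2.2 q.2.1)

section

variable {A B C : Finset ℤ} {G : ℤ × ℤ × ℤ → ℝ} {a : ℤ → ℤ → ℝ} {s : ℤ → A → ℝ}
  {φ ψ : ℤ → A → ℤ → ℝ} {e h p : ℝ}

/-- the level of the singular data is centre data -/
theorem cen_of_svd (H : IsSvdF A B (sl a G) s φ ψ) (hL : LineB e A B C G) (he : 0 ≤ e)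
    (ha : ∀ x ∈ A, ∀ y ∈ B, |a x y| ≤ h) (hp : n2 (A ×ˢ B) (gf a) ≤ p)
    (hr : ∀ x ∈ A, (avg B fun y => a x y ^ 2) ≤ h * p) {σ S : ℝ} (hσ : 0 ≤ σ) (hS : 0 ≤ S) :
    Cen A B C h p e (σ * S) a (uF H σ (lvI s σ S)) (vF H σ (lvI s σ S)) := by
  have hlo : ∀ z ∈ C, ∀ i ∈ lvI s σ S z, σ ≤ s z i := fun z _ i hi => (mem_lvI.1 hi).1
  have hhi : ∀ z ∈ C, ∀ i ∈ lvI s σ S z, s z i ≤ S := fun z _ i hi => (mem_lvI.1 hi).2.le
  have ha2 : ∀ x ∈ A, ∀ y ∈ B, a x y ^ 2 ≤ h ^ 2 := fun x hx y hy => by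
    have := ha x hx y hy
    rw [← sq_abs]; exact pow_le_pow_left₀ (abs_nonneg _) this 2
  have hen : (avg C fun z => ∑ i ∈ lvI s σ S z, s z i ^ 2) ≤ e * p ^ 2 := by
    refine (energy_lev_le H _).trans ((energy_gauge hL a).trans ?_)
    exact mul_le_mul_of_nonneg_left (pow_le_pow_left₀ (n2_nonneg _ _) hp 2) he
  refine ⟨ha, hp, hr, ?_, ?_, ?_, ?_, ?_, ?_, ?_⟩
  · intro z hz x hx
    exact norm_uF_gauge H hL (sq_nonneg h) ha2 hσ hz (hlo z hz) hx
  · intro z hz y hy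
    exact norm_vF_gauge H hL (sq_nonneg h) ha2 hσ hz (hlo z hz) hy
  · exact (energy_uF_le H hσ hlo).trans hen
  · exact (energy_vF_le H hσ hlo).trans hen
  · intro x hx
    exact (deg_uF H hL hσ hlo hx).trans (mul_le_mul_of_nonneg_left (hr x hx) he)
  · intro z hz w
    exact pot_uF H hσ hS (hhi z hz) w
  · intro z hz w
    exact pot_vF H hσ hS (hhi z hz) w

/-- the pairing with the centre atom of the level is the energy of the level -/
theorem pair_cen (H : IsSvdF A B (sl a G) s φ ψ) {σ : ℝ} (hσ : 0 < σ) (I : ℤ → Finset A) :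
    (avg (A ×ˢ B ×ˢ C) fun q => G q * cen a (uF H σ I) (vF H σ I) q) =
      σ * avg C fun z => ∑ i ∈ I z, s z i ^ 2 := by
  rw [← pair_gauge H hσ I, ← avg_mul_left]
  refine avg_congr fun q _ => ?_
  unfold cen
  have : σ * σ⁻¹ = 1 := mul_inv_cancel₀ hσ.ne'
  linear_combination (-(G q * (a q.1 q.2.1 *
    inner ℝ (uF H σ I q.2.2 q.1) (vF H σ I q.2.2 q.2.1)))) * this

/-- the layers above `S` -/
theorem high_part {s : ℤ → A → ℝ} (hs : ∀ z i, 0 ≤ s z i) {D : ℝ} (hD : 0 ≤ D)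
    (h6 : ∀ τ, 0 < τ → τ ^ 6 * H834.cnt C s τ ≤ D) {S : ℝ} (hS : 0 < S) :
    (avg C fun z => ∑ i ∈ hiI s S z, s z i ^ 4) ≤ 64 / 3 * D / S ^ 2 := by
  classical
  obtain ⟨J, hJ⟩ : ∃ J : ℕ, ∀ z ∈ C, ∀ i, s z i < 2 ^ J * S := by
    obtain ⟨J, hJ⟩ := pow_unbounded_of_one_lt ((∑ z ∈ C, ∑ i, s z i) / S) (one_lt_two (α := ℝ))
    refine ⟨J, fun z hz i => ?_⟩
    rw [div_lt_iff₀ hS] at hJ
    refine lt_of_le_of_lt ?_ hJ
    have t1 : s z i ≤ ∑ i : A, s z i :=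
      single_le_sum (f := fun i : A => s z i) (fun i _ => hs z i) (mem_univ i)
    have t0 : ∀ w ∈ C, 0 ≤ ∑ i : A, s w i := fun w _ => sum_nonneg fun i _ => hs w i
    have t2 : ∑ i : A, s z i ≤ ∑ w ∈ C, ∑ i : A, s w i :=
      single_le_sum (f := fun w => ∑ i : A, s w i) t0 hz
    exact t1.trans t2
  -- one singular value
  have one : ∀ (J : ℕ) (r : ℝ), S ≤ r → r < 2 ^ J * S →
      r ^ 4 ≤ 16 * ∑ j ∈ range J, (2 ^ j * S) ^ 4 * (if 2 ^ j * S ≤ r then 1 else 0) := by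
    intro J
    induction J with
    | zero =>
      intro r h1 h2
      simp only [pow_zero, one_mul] at h2
      exact absurd h1 (not_le.2 h2)
    | succ J ih =>
      intro r h1 h2
      rw [sum_range_succ]
      have hn : 0 ≤ ∑ j ∈ range J, (2 ^ j * S) ^ 4 * (if 2 ^ j * S ≤ r then (1 : ℝ) else 0) :=
        sum_nonneg fun j _ => by split_ifs <;> positivity
      have hr : 0 ≤ r := hS.le.trans h1
      by_cases h : r < 2 ^ J * S
      · have h3 := ih r h1 h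
        have h4 : (0 : ℝ) ≤ (2 ^ J * S) ^ 4 * (if 2 ^ J * S ≤ r then (1 : ℝ) else 0) := by
          split_ifs <;> positivity
        linarith
      · rw [not_lt] at h
        rw [if_pos h]
        have h3 : r ^ 4 ≤ (2 * (2 ^ J * S)) ^ 4 := by
          refine pow_le_pow_left₀ hr (le_of_lt ?_) 4
          calc r < 2 ^ (J + 1) * S := h2
            _ = 2 * (2 ^ J * S) := by ring
        have h4 : (2 * (2 ^ J * S)) ^ 4 = 16 * ((2 ^ J * S) ^ 4 * 1) := by ring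
        rw [h4] at h3
        linarith
  have h1 : (avg C fun z => ∑ i ∈ hiI s S z, s z i ^ 4) ≤ avg C fun z =>
      ∑ j ∈ range J, 16 * (2 ^ j * S) ^ 4 *
        (((univ : Finset A).filter fun i => 2 ^ j * S ≤ s z i).card : ℝ) := by
    refine avg_mono fun z hz => ?_
    have h2 : ∑ i ∈ hiI s S z, s z i ^ 4 ≤ ∑ i ∈ hiI s S z,
        16 * ∑ j ∈ range J, (2 ^ j * S) ^ 4 * (if 2 ^ j * S ≤ s z i then 1 else 0) :=
      sum_le_sum fun i hi => one J _ (mem_hiI.1 hi) (hJ z hz i)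
    refine h2.trans ?_
    have h3 : ∑ i ∈ hiI s S z,
        16 * ∑ j ∈ range J, (2 ^ j * S) ^ 4 * (if 2 ^ j * S ≤ s z i then (1 : ℝ) else 0) ≤
        ∑ i : A, 16 * ∑ j ∈ range J, (2 ^ j * S) ^ 4 *
          (if 2 ^ j * S ≤ s z i then (1 : ℝ) else 0) := by
      refine sum_le_sum_of_subset_of_nonneg (subset_univ _) fun i _ _ => ?_
      refine mul_nonneg (by norm_num) (sum_nonneg fun j _ => ?_)
      split_ifs <;> positivity
    refine h3.trans (le_of_eq ?_)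
    rw [← mul_sum, sum_comm, mul_sum]
    refine sum_congr rfl fun j _ => ?_
    rw [← mul_sum, Finset.sum_boole]
    ring
  refine h1.trans ?_
  have h3 : (avg C fun z => ∑ j ∈ range J, 16 * (2 ^ j * S) ^ 4 *
        (((univ : Finset A).filter fun i => 2 ^ j * S ≤ s z i).card : ℝ)) =
        ∑ j ∈ range J, 16 * (2 ^ j * S) ^ 4 * H834.cnt C s (2 ^ j * S) := by
    unfold H834.cnt avg
    simp only [mul_sum]
    rw [sum_comm]
    exact sum_congr rfl fun j _ => sum_congr rfl fun z _ => by ring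
  rw [h3]
  have h4 : ∑ j ∈ range J, 16 * (2 ^ j * S) ^ 4 * H834.cnt C s (2 ^ j * S) ≤
      ∑ j ∈ range J, (16 * D / S ^ 2) * (1 / 4 : ℝ) ^ j := by
    refine sum_le_sum fun j _ => ?_
    have hp : 0 < (2 : ℝ) ^ j * S := by positivity
    have h5 := h6 _ hp
    have h7 : 16 * ((2 : ℝ) ^ j * S) ^ 4 * H834.cnt C s (2 ^ j * S) =
        16 * (((2 : ℝ) ^ j * S) ^ 6 * H834.cnt C s (2 ^ j * S)) / ((2 : ℝ) ^ j * S) ^ 2 := by
      field_simp
    have h8 : 16 * D / S ^ 2 * (1 / 4 : ℝ) ^ j = 16 * D / ((2 : ℝ) ^ j * S) ^ 2 := by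
      rw [one_div, inv_pow, show (4 : ℝ) = 2 ^ 2 by norm_num, ← pow_mul, mul_comm 2 j, pow_mul]
      field_simp
    rw [h7, h8]
    gcongr
  refine h4.trans ?_
  rw [← mul_sum]
  have h10 : ∑ j ∈ range J, (1 / 4 : ℝ) ^ j ≤ 4 / 3 := by
    rw [geom_sum_eq (by norm_num)]
    have : (0 : ℝ) < (1 / 4) ^ J := by positivity
    rw [div_le_iff_of_neg (by norm_num)]
    linarith
  calc 16 * D / S ^ 2 * ∑ j ∈ range J, (1 / 4 : ℝ) ^ j ≤ 16 * D / S ^ 2 * (4 / 3) :=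
        mul_le_mul_of_nonneg_left h10 (by positivity)
    _ = _ := by ring

/-- **The fourth moment from the three levels**: low by the energy, middle by the pairing with the
centre atom, high by the count. -/
theorem mo4_level (H : IsSvdF A B (sl a G) s φ ψ) (hL : LineB e A B C G) (he : 0 ≤ e)
    (hp : n2 (A ×ˢ B) (gf a) ≤ p) {D : ℝ} (hD : 0 ≤ D)
    (h6 : ∀ τ, 0 < τ → τ ^ 6 * H834.cnt C s τ ≤ D) {σ S ρ : ℝ} (hσ : 0 < σ) (hσS : σ ≤ S)
    (hc : (avg (A ×ˢ B ×ˢ C) fun q =>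
      G q * cen a (uF H σ (lvI s σ S)) (vF H σ (lvI s σ S)) q) ≤ σ * ρ) :
    mo4 A B C a G ≤ σ ^ 2 * (e * p ^ 2) + S ^ 2 * ρ + 64 / 3 * D / S ^ 2 := by
  have hS : 0 < S := hσ.trans_le hσS
  have hs : ∀ z i, 0 ≤ s z i := fun z i => (H z).s0 i
  have e4 : mo4 A B C a G = avg C fun z => ∑ i, s z i ^ 4 :=
    avg_congr fun z _ => ((H z).sum_four).symm
  have e3 : (avg C fun z => ∑ i, s z i ^ 4) = (avg C fun z => ∑ i ∈ loI s σ z, s z i ^ 4) +
      (avg C fun z => ∑ i ∈ lvI s σ S z, s z i ^ 4) + avg C fun z => ∑ i ∈ hiI s S z, s z i ^ 4 := by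
    rw [← avg_add, ← avg_add]
    exact avg_congr fun z _ => sum_three s hσS z _
  have hE : (avg C fun z => ∑ i, s z i ^ 2) ≤ e * p ^ 2 := by
    refine le_trans (le_of_eq (avg_congr fun z _ => (H z).sum_sq)) ((energy_gauge hL a).trans ?_)
    exact mul_le_mul_of_nonneg_left (pow_le_pow_left₀ (n2_nonneg _ _) hp 2) he
  -- low
  have k1 : (avg C fun z => ∑ i ∈ loI s σ z, s z i ^ 4) ≤ σ ^ 2 * (e * p ^ 2) := by
    refine le_trans ?_ (mul_le_mul_of_nonneg_left hE (sq_nonneg σ))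
    rw [← avg_mul_left]
    refine avg_mono fun z _ => ?_
    rw [mul_sum]
    refine le_trans (sum_le_sum fun i hi => ?_)
      (sum_le_sum_of_subset_of_nonneg (subset_univ (loI s σ z)) fun i _ _ => by positivity)
    have h1 : s z i ^ 2 ≤ σ ^ 2 := pow_le_pow_left₀ (hs z i) (mem_loI.1 hi).le 2
    nlinarith [sq_nonneg (s z i)]
  -- middle
  have k2 : (avg C fun z => ∑ i ∈ lvI s σ S z, s z i ^ 4) ≤ S ^ 2 * ρ := by
    have h1 : (avg C fun z => ∑ i ∈ lvI s σ S z, s z i ^ 2) ≤ ρ := by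
      rw [pair_cen H hσ] at hc
      exact le_of_mul_le_mul_left hc hσ
    refine le_trans ?_ (mul_le_mul_of_nonneg_left h1 (sq_nonneg S))
    rw [← avg_mul_left]
    refine avg_mono fun z _ => ?_
    rw [mul_sum]
    refine sum_le_sum fun i hi => ?_
    have h1 : s z i ^ 2 ≤ S ^ 2 := pow_le_pow_left₀ (hs z i) (mem_lvI.1 hi).2.le 2
    nlinarith [sq_nonneg (s z i)]
  have k3 := high_part (C := C) hs hD h6 hS
  rw [e4, e3]
  linarith

end

end

end Vale.Agent.P141.H971
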