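import Vale.Agent.P141.PL.Defs

/-!
# P141, line W, module SPLIT: the operator potential of a vector valued edge function

`u x y` is a vector.  On a square `J0 × J1` the potential is `∑_{x ∈ J0} ‖∑_{y ∈ J1} u x y ⊗ u x y‖`.
Whenever it exceeds `w |J0| |J1|` one direction `d x` is split off (for all `x ∈ J0`), until the
potential is at most `w |J0| |J1|`; this is done on the dyadic squares of a root, from the top down.

* `‖u‖` decreases pointwise;
* the number of split off directions, weighted by the area of the squares, is at most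
  `(4 / w) ∑ ‖u‖²`;
* the sum of the energies of the split off scalar functions is at most `∑ ‖u‖²`;
* at every scale the potential is at most `w` on all the squares of that scale and coarser.
-/

namespace Vale.Agent.P141.H971

open Finset
open Vale.Agent.P141.PL (iv ix mem_iv self_mem_iv)

noncomputable section

set_option linter.unusedSectionVars false

variable {V : Type*} [NormedAddCommGroup V] [InnerProductSpace ℝ V]

/-- The quadratic form of `∑_{y ∈ B} f y ⊗ f y`. -/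
def qf (B : Finset ℤ) (f : ℤ → V) (v : V) : ℝ := ∑ y ∈ B, (inner ℝ (f y) v) ^ 2

theorem qf_nonneg (B : Finset ℤ) (f : ℤ → V) (v : V) : 0 ≤ qf B f v :=
  sum_nonneg fun _ _ => sq_nonneg _

/-- The energy. -/
def nrg (B : Finset ℤ) (f : ℤ → V) : ℝ := ∑ y ∈ B, ‖f y‖ ^ 2

theorem nrg_nonneg (B : Finset ℤ) (f : ℤ → V) : 0 ≤ nrg B f := sum_nonneg fun _ _ => sq_nonneg _

theorem qf_le (B : Finset ℤ) (f : ℤ → V) (v : V) : qf B f v ≤ nrg B f * ‖v‖ ^ 2 := by
  unfold qf nrg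
  rw [sum_mul]
  refine sum_le_sum fun y _ => ?_
  rw [← mul_pow, ← sq_abs (inner ℝ (f y) v)]
  exact pow_le_pow_left₀ (abs_nonneg _) (abs_real_inner_le_norm _ _) 2

theorem qf_smul (B : Finset ℤ) (f : ℤ → V) (c : ℝ) (v : V) :
    qf B f (c • v) = c ^ 2 * qf B f v := by
  unfold qf
  rw [mul_sum]
  refine sum_congr rfl fun y _ => ?_
  rw [inner_smul_right]; ring

/-- The operator norm of `∑_{y ∈ B} f y ⊗ f y`. -/
def opn (B : Finset ℤ) (f : ℤ → V) : ℝ := ⨆ v : Metric.closedBall (0 : V) 1, qf B f v.1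

theorem bdd_qf (B : Finset ℤ) (f : ℤ → V) :
    BddAbove (Set.range fun v : Metric.closedBall (0 : V) 1 => qf B f v.1) := by
  refine ⟨nrg B f, ?_⟩
  rintro _ ⟨v, rfl⟩
  have h1 : ‖v.1‖ ≤ 1 := mem_closedBall_zero_iff.mp v.2
  refine (qf_le B f v.1).trans ?_
  calc nrg B f * ‖v.1‖ ^ 2 ≤ nrg B f * 1 :=
        mul_le_mul_of_nonneg_left (pow_le_one₀ (norm_nonneg _) h1) (nrg_nonneg B f)
    _ = nrg B f := mul_one _

instance : Nonempty (Metric.closedBall (0 : V) 1) := ⟨⟨0, by simp⟩⟩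

theorem le_opn (B : Finset ℤ) (f : ℤ → V) {v : V} (hv : ‖v‖ ≤ 1) : qf B f v ≤ opn B f :=
  le_ciSup (bdd_qf B f) ⟨v, by simpa using hv⟩

theorem opn_nonneg (B : Finset ℤ) (f : ℤ → V) : 0 ≤ opn B f :=
  (qf_nonneg B f 0).trans (le_opn B f (by simp))

theorem opn_le {B : Finset ℤ} {f : ℤ → V} {c : ℝ} (h : ∀ v : V, ‖v‖ ≤ 1 → qf B f v ≤ c) :
    opn B f ≤ c :=
  ciSup_le fun v => h v.1 (mem_closedBall_zero_iff.mp v.2)

theorem qf_le_opn (B : Finset ℤ) (f : ℤ → V) (v : V) : qf B f v ≤ opn B f * ‖v‖ ^ 2 := by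
  by_cases h0 : ‖v‖ = 0
  · have hv : v = 0 := norm_eq_zero.mp h0
    subst hv
    unfold qf
    simp
  · have h1 : ‖(‖v‖⁻¹ • v)‖ ≤ 1 := by
      rw [norm_smul, norm_inv, norm_norm, inv_mul_cancel₀ h0]
    have h2 := le_opn B f h1
    rw [qf_smul] at h2
    have h3 : 0 < ‖v‖ ^ 2 := by positivity
    calc qf B f v = ‖v‖ ^ 2 * (‖v‖⁻¹ ^ 2 * qf B f v) := by field_simp
      _ ≤ ‖v‖ ^ 2 * opn B f := mul_le_mul_of_nonneg_left h2 h3.le
      _ = _ := mul_comm _ _

theorem opn_le_nrg (B : Finset ℤ) (f : ℤ → V) : opn B f ≤ nrg B f :=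
  opn_le fun v hv => (qf_le B f v).trans (by
    calc nrg B f * ‖v‖ ^ 2 ≤ nrg B f * 1 :=
          mul_le_mul_of_nonneg_left (pow_le_one₀ (norm_nonneg _) hv) (nrg_nonneg B f)
      _ = nrg B f := mul_one _)

theorem qf_congr {B : Finset ℤ} {f g : ℤ → V} (h : ∀ y ∈ B, f y = g y) (v : V) :
    qf B f v = qf B g v := by
  unfold qf
  exact sum_congr rfl fun y hy => by rw [h y hy]

theorem opn_congr {B : Finset ℤ} {f g : ℤ → V} (h : ∀ y ∈ B, f y = g y) : opn B f = opn B g := by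
  unfold opn
  congr 1
  funext v
  exact qf_congr h v.1

theorem opn_union_le {B B' : Finset ℤ} (h : Disjoint B B') (f : ℤ → V) :
    opn (B ∪ B') f ≤ opn B f + opn B' f := by
  refine opn_le fun v hv => ?_
  have : qf (B ∪ B') f v = qf B f v + qf B' f v := by
    unfold qf; exact sum_union h
  rw [this]
  exact add_le_add (le_opn B f hv) (le_opn B' f hv)

/-- A direction which sees half of the operator norm. -/
theorem exists_dir (B : Finset ℤ) (f : ℤ → V) : ∃ v : V, ‖v‖ ≤ 1 ∧ opn B f ≤ 2 * qf B f v := by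
  rcases (opn_nonneg B f).eq_or_lt with h | h
  · exact ⟨0, by simp, by rw [← h]; have := qf_nonneg B f (0 : V); linarith⟩
  · have h1 : opn B f / 2 < opn B f := by linarith
    obtain ⟨v, hv⟩ := exists_lt_of_lt_ciSup (h1 : opn B f / 2 < ⨆ v : Metric.closedBall (0 : V) 1,
      qf B f v.1)
    exact ⟨v.1, mem_closedBall_zero_iff.mp v.2, by linarith⟩

/-- The chosen direction. -/
def dir1 (B : Finset ℤ) (f : ℤ → V) : V := (exists_dir B f).choose

theorem norm_dir1 (B : Finset ℤ) (f : ℤ → V) : ‖dir1 B f‖ ≤ 1 := (exists_dir B f).choose_spec.1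

theorem opn_le_dir1 (B : Finset ℤ) (f : ℤ → V) : opn B f ≤ 2 * qf B f (dir1 B f) :=
  (exists_dir B f).choose_spec.2

/-- The chosen direction; only the values of `f` on `B` matter. -/
def dir0 (B : Finset ℤ) (f : ℤ → V) : V := dir1 B ((B : Set ℤ).indicator f)

theorem ind_eq {B : Finset ℤ} (f : ℤ → V) {y : ℤ} (hy : y ∈ B) :
    (B : Set ℤ).indicator f y = f y := Set.indicator_of_mem (by exact_mod_cast hy) f

theorem dir0_congr {B : Finset ℤ} {f g : ℤ → V} (h : ∀ y ∈ B, f y = g y) :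
    dir0 B f = dir0 B g := by
  have : (B : Set ℤ).indicator f = (B : Set ℤ).indicator g := by
    funext y
    by_cases hy : y ∈ (B : Set ℤ)
    · rw [Set.indicator_of_mem hy, Set.indicator_of_mem hy]; exact h y (by exact_mod_cast hy)
    · rw [Set.indicator_of_notMem hy, Set.indicator_of_notMem hy]
  unfold dir0
  rw [this]

theorem norm_dir0 (B : Finset ℤ) (f : ℤ → V) : ‖dir0 B f‖ ≤ 1 := norm_dir1 _ _

theorem opn_le_dir0 (B : Finset ℤ) (f : ℤ → V) : opn B f ≤ 2 * qf B f (dir0 B f) := by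
  have h := opn_le_dir1 B ((B : Set ℤ).indicator f)
  rw [opn_congr (fun y hy => ind_eq f hy), qf_congr (fun y hy => ind_eq f hy)] at h
  exact h

/-! ### one step on one square -/

/-- The potential of a square (a sum). -/
def pot (J0 J1 : Finset ℤ) (u : ℤ → ℤ → V) : ℝ := ∑ x ∈ J0, opn J1 (u x)

theorem pot_nonneg (J0 J1 : Finset ℤ) (u : ℤ → ℤ → V) : 0 ≤ pot J0 J1 u :=
  sum_nonneg fun _ _ => opn_nonneg _ _

theorem pot_congr {J0 J1 : Finset ℤ} {u u' : ℤ → ℤ → V} (h : ∀ x ∈ J0, ∀ y ∈ J1, u x y = u' x y) :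
    pot J0 J1 u = pot J0 J1 u' :=
  sum_congr rfl fun x hx => opn_congr fun y hy => h x hx y hy

/-- The mass of a square (a sum). -/
def mass (J0 J1 : Finset ℤ) (u : ℤ → ℤ → V) : ℝ := ∑ x ∈ J0, ∑ y ∈ J1, ‖u x y‖ ^ 2

theorem mass_nonneg (J0 J1 : Finset ℤ) (u : ℤ → ℤ → V) : 0 ≤ mass J0 J1 u :=
  sum_nonneg fun _ _ => sum_nonneg fun _ _ => sq_nonneg _

open Classical in
/-- The direction of the step at `x`: zero if the operator norm at `x` is small. -/
def dr (w : ℝ) (J1 : Finset ℤ) (u : ℤ → ℤ → V) (x : ℤ) : V :=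
  if w * J1.card < 2 * opn J1 (u x) then dir0 J1 (u x) else 0

theorem norm_dr (w : ℝ) (J1 : Finset ℤ) (u : ℤ → ℤ → V) (x : ℤ) : ‖dr w J1 u x‖ ≤ 1 := by
  unfold dr
  split_ifs
  · exact norm_dir0 _ _
  · simp

/-- The split off scalar function. -/
def cf (w : ℝ) (J1 : Finset ℤ) (u : ℤ → ℤ → V) (x y : ℤ) : ℝ := inner ℝ (u x y) (dr w J1 u x)

/-- The function after the step. -/
def stp (w : ℝ) (J1 : Finset ℤ) (u : ℤ → ℤ → V) (x y : ℤ) : V :=
  u x y - cf w J1 u x y • dr w J1 u x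

theorem norm_stp_sq_le (w : ℝ) (J1 : Finset ℤ) (u : ℤ → ℤ → V) (x y : ℤ) :
    ‖stp w J1 u x y‖ ^ 2 + cf w J1 u x y ^ 2 ≤ ‖u x y‖ ^ 2 := by
  have hd := norm_dr w J1 u x
  set d := dr w J1 u x with hdd
  set c := cf w J1 u x y with hc
  have h1 : ‖stp w J1 u x y‖ ^ 2 = ‖u x y‖ ^ 2 - 2 * c ^ 2 + c ^ 2 * ‖d‖ ^ 2 := by
    unfold stp
    rw [← hdd, ← hc, norm_sub_sq_real, inner_smul_right, norm_smul, mul_pow, Real.norm_eq_abs,
      sq_abs]
    have : inner ℝ (u x y) d = c := rfl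
    rw [this]
    ring
  have h2 : c ^ 2 * ‖d‖ ^ 2 ≤ c ^ 2 * 1 :=
    mul_le_mul_of_nonneg_left (pow_le_one₀ (norm_nonneg _) hd) (sq_nonneg _)
  rw [h1]
  linarith

theorem norm_stp_le (w : ℝ) (J1 : Finset ℤ) (u : ℤ → ℤ → V) (x y : ℤ) :
    ‖stp w J1 u x y‖ ≤ ‖u x y‖ := by
  have h := norm_stp_sq_le w J1 u x y
  have h2 := sq_nonneg (cf w J1 u x y)
  exact le_of_sq_le_sq (by linarith) (norm_nonneg _)
where
  le_of_sq_le_sq {a b : ℝ} (h : a ^ 2 ≤ b ^ 2) (hb : 0 ≤ b) : a ≤ b := by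
    by_contra hlt
    push Not at hlt
    nlinarith

theorem cf_sum_ge {w : ℝ} (hw : 0 ≤ w) (J0 J1 : Finset ℤ) (u : ℤ → ℤ → V)
    (h : w * (J0.card * J1.card) < pot J0 J1 u) :
    w * (J0.card * J1.card) ≤ 4 * ∑ x ∈ J0, ∑ y ∈ J1, cf w J1 u x y ^ 2 := by
  have hx : ∀ x ∈ J0, opn J1 (u x) ≤ w * J1.card / 2 + 2 * ∑ y ∈ J1, cf w J1 u x y ^ 2 := by
    intro x _
    have hq : ∑ y ∈ J1, cf w J1 u x y ^ 2 = qf J1 (u x) (dr w J1 u x) := rfl
    rw [hq]
    by_cases hc : w * J1.card < 2 * opn J1 (u x)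
    · have : dr w J1 u x = dir0 J1 (u x) := by unfold dr; rw [if_pos hc]
      rw [this]
      have h1 := opn_le_dir0 J1 (u x)
      have h2 : (0 : ℝ) ≤ w * J1.card := mul_nonneg hw (Nat.cast_nonneg _)
      linarith
    · push Not at hc
      have h1 := qf_nonneg J1 (u x) (dr w J1 u x)
      linarith
  have h2 := sum_le_sum hx
  rw [sum_add_distrib, sum_const, ← mul_sum, nsmul_eq_mul] at h2
  unfold pot at h
  have h3 : (J0.card : ℝ) * (w * J1.card / 2) = w * (J0.card * J1.card) / 2 := by ring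
  rw [h3] at h2
  linarith

theorem mass_stp (w : ℝ) (J0 J1 : Finset ℤ) (u : ℤ → ℤ → V) :
    mass J0 J1 (stp w J1 u) + ∑ x ∈ J0, ∑ y ∈ J1, cf w J1 u x y ^ 2 ≤ mass J0 J1 u := by
  unfold mass
  rw [← sum_add_distrib]
  refine sum_le_sum fun x _ => ?_
  rw [← sum_add_distrib]
  exact sum_le_sum fun y _ => norm_stp_sq_le w J1 u x y

/-! ### iteration on one square -/

/-- The iterates. -/
def itr (w : ℝ) (J1 : Finset ℤ) (u : ℤ → ℤ → V) : ℕ → ℤ → ℤ → V
  | 0 => u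
  | i + 1 => stp w J1 (itr w J1 u i)

theorem itr_succ (w : ℝ) (J1 : Finset ℤ) (u : ℤ → ℤ → V) (i : ℕ) :
    itr w J1 u (i + 1) = stp w J1 (itr w J1 u i) := rfl

theorem dr_congr {w : ℝ} {J1 : Finset ℤ} {u u' : ℤ → ℤ → V} {x : ℤ}
    (h : ∀ y ∈ J1, u x y = u' x y) : dr w J1 u x = dr w J1 u' x := by
  unfold dr
  rw [opn_congr h, dir0_congr h]

theorem stp_congr {w : ℝ} {J1 : Finset ℤ} {u u' : ℤ → ℤ → V} {x : ℤ}
    (h : ∀ y ∈ J1, u x y = u' x y) : ∀ y ∈ J1, stp w J1 u x y = stp w J1 u' x y := by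
  intro y hy
  unfold stp cf
  rw [dr_congr h, h y hy]

theorem itr_congr {w : ℝ} {J1 : Finset ℤ} {u u' : ℤ → ℤ → V} {x : ℤ}
    (h : ∀ y ∈ J1, u x y = u' x y) (i : ℕ) : ∀ y ∈ J1, itr w J1 u i x y = itr w J1 u' i x y := by
  induction i with
  | zero => exact h
  | succ i ih => exact stp_congr ih

/-- After finitely many steps the potential is small. -/
theorem exists_cnt {w : ℝ} (hw : 0 < w) {J0 J1 : Finset ℤ} (h0 : J0.Nonempty) (h1 : J1.Nonempty)
    (u : ℤ → ℤ → V) : ∃ i, pot J0 J1 (itr w J1 u i) ≤ w * (J0.card * J1.card) := by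
  by_contra hcon
  push Not at hcon
  have hc0 : (0 : ℝ) < J0.card := by exact_mod_cast card_pos.mpr h0
  have hc1 : (0 : ℝ) < J1.card := by exact_mod_cast card_pos.mpr h1
  set a : ℝ := w * (J0.card * J1.card) with ha
  have ha0 : 0 < a := by positivity
  have hm : ∀ i : ℕ, mass J0 J1 (itr w J1 u i) + i * (a / 4) ≤ mass J0 J1 u := by
    intro i
    induction i with
    | zero => simp [itr]
    | succ i ih =>
      have h2 := mass_stp w J0 J1 (itr w J1 u i)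
      have h3 := cf_sum_ge hw.le J0 J1 (itr w J1 u i) (hcon i)
      rw [itr_succ]
      push_cast
      rw [← ha] at h3
      linarith
  obtain ⟨i, hi⟩ := exists_nat_gt (mass J0 J1 u / (a / 4))
  have h4 := hm i
  have h5 := mass_nonneg J0 J1 (itr w J1 u i)
  rw [div_lt_iff₀ (by positivity)] at hi
  linarith

open Classical in
/-- The number of steps on the square. -/
def cnt (w : ℝ) (J0 J1 : Finset ℤ) (u : ℤ → ℤ → V) : ℕ :=
  if h : ∃ i, pot J0 J1 (itr w J1 u i) ≤ w * (J0.card * J1.card) then Nat.find h else 0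

theorem pot_cnt {w : ℝ} (hw : 0 < w) {J0 J1 : Finset ℤ} (h0 : J0.Nonempty) (h1 : J1.Nonempty)
    (u : ℤ → ℤ → V) : pot J0 J1 (itr w J1 u (cnt w J0 J1 u)) ≤ w * (J0.card * J1.card) := by
  classical
  have h := exists_cnt hw h0 h1 u
  unfold cnt
  rw [dif_pos h]
  exact Nat.find_spec h

theorem pot_lt_cnt {w : ℝ} {J0 J1 : Finset ℤ} {u : ℤ → ℤ → V} {i : ℕ} (hi : i < cnt w J0 J1 u) :
    w * (J0.card * J1.card) < pot J0 J1 (itr w J1 u i) := by
  classical
  unfold cnt at hi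
  by_cases h : ∃ i, pot J0 J1 (itr w J1 u i) ≤ w * (J0.card * J1.card)
  · rw [dif_pos h] at hi
    exact not_le.mp (Nat.find_min h hi)
  · rw [dif_neg h] at hi
    omega

/-- mass balance after `i ≤ cnt` steps -/
theorem mass_itr {w : ℝ} (J0 J1 : Finset ℤ) (u : ℤ → ℤ → V) (i : ℕ) :
    mass J0 J1 (itr w J1 u i) +
      ∑ j ∈ range i, ∑ x ∈ J0, ∑ y ∈ J1, cf w J1 (itr w J1 u j) x y ^ 2 ≤ mass J0 J1 u := by
  induction i with
  | zero => simp [itr]
  | succ i ih =>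
    rw [sum_range_succ, itr_succ]
    have := mass_stp w J0 J1 (itr w J1 u i)
    linarith

theorem cnt_mul_le {w : ℝ} (hw : 0 ≤ w) (J0 J1 : Finset ℤ) (u : ℤ → ℤ → V) :
    (cnt w J0 J1 u) * (w * (J0.card * J1.card)) ≤
      4 * ∑ j ∈ range (cnt w J0 J1 u), ∑ x ∈ J0, ∑ y ∈ J1, cf w J1 (itr w J1 u j) x y ^ 2 := by
  rw [mul_sum, ← nsmul_eq_mul]
  have h : (cnt w J0 J1 u) • (w * ((J0.card : ℝ) * J1.card)) =
      ∑ _j ∈ range (cnt w J0 J1 u), w * ((J0.card : ℝ) * J1.card) := by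
    rw [sum_const, card_range]
  rw [h]
  exact sum_le_sum fun j hj => cf_sum_ge hw J0 J1 _ (pot_lt_cnt (mem_range.mp hj))

theorem norm_itr_le (w : ℝ) (J1 : Finset ℤ) (u : ℤ → ℤ → V) (i : ℕ) (x y : ℤ) :
    ‖itr w J1 u i x y‖ ≤ ‖u x y‖ := by
  induction i with
  | zero => simp [itr]
  | succ i ih => rw [itr_succ]; exact (norm_stp_le w J1 _ x y).trans ih

theorem itr_eq (w : ℝ) (J1 : Finset ℤ) (u : ℤ → ℤ → V) (i : ℕ) (x y : ℤ) :
    u x y = itr w J1 u i x y +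
      ∑ j ∈ range i, cf w J1 (itr w J1 u j) x y • dr w J1 (itr w J1 u j) x := by
  induction i with
  | zero => simp [itr]
  | succ i ih =>
    rw [sum_range_succ, itr_succ]
    have : itr w J1 u i x y = stp w J1 (itr w J1 u i) x y +
        cf w J1 (itr w J1 u i) x y • dr w J1 (itr w J1 u i) x := by
      unfold stp; abel
    rw [ih] at *
    rw [this]
    abel

/-! ### the dyadic process -/

/-- The treatment of the scale `k`. -/
def trt (w : ℝ) (k : ℕ) (g : ℤ → ℤ → V) (x y : ℤ) : V :=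
  itr w (iv k (ix k y)) g (cnt w (iv k (ix k x)) (iv k (ix k y)) g) x y

/-- The process, indexed by the number of steps. -/
def PU (w : ℝ) (N : ℕ) (u : ℤ → ℤ → V) : ℕ → ℤ → ℤ → V
  | 0 => u
  | j + 1 => trt w (N - j) (PU w N u j)

/-- The process: `up (N + 1) = u`, and `up k` has small potential on the squares of scale `k`. -/
def up (w : ℝ) (N : ℕ) (u : ℤ → ℤ → V) (k : ℕ) : ℤ → ℤ → V := PU w N u (N + 1 - k)

theorem up_top (w : ℝ) (N : ℕ) (u : ℤ → ℤ → V) {k : ℕ} (hk : N + 1 ≤ k) : up w N u k = u := by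
  unfold up
  rw [show N + 1 - k = 0 by omega]; rfl

theorem up_step (w : ℝ) (N : ℕ) (u : ℤ → ℤ → V) {k : ℕ} (hk : k ≤ N) :
    up w N u k = trt w k (up w N u (k + 1)) := by
  unfold up
  rw [show N + 1 - k = (N - k) + 1 by omega, show N + 1 - (k + 1) = N - k by omega]
  show trt w (N - (N - k)) _ = _
  rw [show N - (N - k) = k by omega]

/-- The number of directions split off on the square of scale `k` with indices `m1`, `m2`. -/
def ct (w : ℝ) (N : ℕ) (u : ℤ → ℤ → V) (k : ℕ) (m1 m2 : ℤ) : ℕ :=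
  cnt w (iv k m1) (iv k m2) (up w N u (k + 1))

/-- The `i`-th scalar function split off at the scale `k`. -/
def sf (w : ℝ) (N : ℕ) (u : ℤ → ℤ → V) (k i : ℕ) (x y : ℤ) : ℝ :=
  cf w (iv k (ix k y)) (itr w (iv k (ix k y)) (up w N u (k + 1)) i) x y

/-- The `i`-th direction split off at the scale `k`; it depends on `y` only through the interval
`m = ix k y`. -/
def sd (w : ℝ) (N : ℕ) (u : ℤ → ℤ → V) (k i : ℕ) (m x : ℤ) : V :=
  dr w (iv k m) (itr w (iv k m) (up w N u (k + 1)) i) x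

theorem norm_sd (w : ℝ) (N : ℕ) (u : ℤ → ℤ → V) (k i : ℕ) (m x : ℤ) : ‖sd w N u k i m x‖ ≤ 1 :=
  norm_dr _ _ _ _

theorem sf_eq (w : ℝ) (N : ℕ) (u : ℤ → ℤ → V) (k i : ℕ) (x y : ℤ) :
    sf w N u k i x y = inner ℝ (itr w (iv k (ix k y)) (up w N u (k + 1)) i x y)
      (sd w N u k i (ix k y) x) := rfl

/-- The identity of the process. -/
theorem up_eq (w : ℝ) (N : ℕ) (u : ℤ → ℤ → V) {k : ℕ} (hk : k ≤ N) (x y : ℤ) :
    up w N u (k + 1) x y = up w N u k x y +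
      ∑ i ∈ range (ct w N u k (ix k x) (ix k y)), sf w N u k i x y • sd w N u k i (ix k y) x := by
  rw [up_step w N u hk]
  exact itr_eq w (iv k (ix k y)) (up w N u (k + 1)) _ x y

theorem norm_up_succ (w : ℝ) (N : ℕ) (u : ℤ → ℤ → V) (k : ℕ) (x y : ℤ) :
    ‖up w N u k x y‖ ≤ ‖up w N u (k + 1) x y‖ := by
  rcases Nat.lt_or_ge N k with h | h
  · rw [up_top w N u (by omega), up_top w N u (by omega)]
  · rw [up_step w N u h]
    exact norm_itr_le _ _ _ _ _ _

theorem norm_up_mono (w : ℝ) (N : ℕ) (u : ℤ → ℤ → V) {k l : ℕ} (hkl : k ≤ l) (x y : ℤ) :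
    ‖up w N u k x y‖ ≤ ‖up w N u l x y‖ := by
  induction l, hkl using Nat.le_induction with
  | base => exact le_rfl
  | succ l _ ih => exact ih.trans (norm_up_succ w N u l x y)

theorem norm_up_le (w : ℝ) (N : ℕ) (u : ℤ → ℤ → V) (k : ℕ) (x y : ℤ) :
    ‖up w N u k x y‖ ≤ ‖u x y‖ := by
  rcases Nat.lt_or_ge N k with h | h
  · rw [up_top w N u (by omega)]
  · have := norm_up_mono w N u (show k ≤ N + 1 by omega) x y
    rwa [up_top w N u le_rfl] at this

theorem trt_eq_itr {w : ℝ} {k : ℕ} {g : ℤ → ℤ → V} {m1 m2 x y : ℤ} (hx : x ∈ iv k m1)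
    (hy : y ∈ iv k m2) : trt w k g x y = itr w (iv k m2) g (cnt w (iv k m1) (iv k m2) g) x y := by
  rw [mem_iv] at hx hy
  unfold trt
  rw [hx, hy]

/-- **Small potential** on the squares of the scale. -/
theorem pot_up {w : ℝ} (hw : 0 < w) {N : ℕ} (u : ℤ → ℤ → V) {k : ℕ} (hk : k ≤ N) (m1 m2 : ℤ) :
    pot (iv k m1) (iv k m2) (up w N u k) ≤ w * 4 ^ k := by
  have h1 : (iv k m1).Nonempty := ⟨2 ^ k * m1, by
    rw [mem_iv]; unfold ix; exact Int.mul_ediv_cancel_left _ (by positivity)⟩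
  have h2 : (iv k m2).Nonempty := ⟨2 ^ k * m2, by
    rw [mem_iv]; unfold ix; exact Int.mul_ediv_cancel_left _ (by positivity)⟩
  rw [up_step w N u hk, pot_congr fun x hx y hy => trt_eq_itr hx hy]
  refine (pot_cnt hw h1 h2 _).trans (le_of_eq ?_)
  rw [Vale.Agent.P141.PL.card_iv, Vale.Agent.P141.PL.card_iv]
  push_cast
  rw [← mul_pow]
  norm_num

/-- the two halves of an interval -/
theorem iv_succ (k : ℕ) (m : ℤ) : iv (k + 1) m = iv k (2 * m) ∪ iv k (2 * m + 1) := by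
  ext x
  rw [mem_union, mem_iv, mem_iv, mem_iv, ← Vale.Agent.P141.PL.ix_ix k 1 x]
  have : ix 1 (ix k x) = ix k x / 2 := by unfold ix; norm_num
  rw [this]
  omega

theorem disj_halves (k : ℕ) (m : ℤ) : Disjoint (iv k (2 * m)) (iv k (2 * m + 1)) := by
  rw [disjoint_left]
  intro x hx hx'
  rw [mem_iv] at hx hx'
  omega

/-- The potential of a square against the potentials of its four quarters. -/
theorem pot_quarters (k : ℕ) (m1 m2 : ℤ) (g : ℤ → ℤ → V) :
    pot (iv (k + 1) m1) (iv (k + 1) m2) g ≤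
      (pot (iv k (2 * m1)) (iv k (2 * m2)) g + pot (iv k (2 * m1)) (iv k (2 * m2 + 1)) g) +
      (pot (iv k (2 * m1 + 1)) (iv k (2 * m2)) g +
        pot (iv k (2 * m1 + 1)) (iv k (2 * m2 + 1)) g) := by
  unfold pot
  rw [iv_succ k m1, sum_union (disj_halves k m1), ← sum_add_distrib, ← sum_add_distrib]
  refine add_le_add (sum_le_sum fun x _ => ?_) (sum_le_sum fun x _ => ?_) <;>
  · rw [iv_succ k m2]
    exact opn_union_le (disj_halves k m2) _

/-- **Small potential** on all the coarser squares. -/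
theorem pot_up_coarse {w : ℝ} (hw : 0 < w) {N : ℕ} (u : ℤ → ℤ → V) {k l : ℕ} (hk : k ≤ N)
    (hkl : k ≤ l) (m1 m2 : ℤ) : pot (iv l m1) (iv l m2) (up w N u k) ≤ w * 4 ^ l := by
  induction l, hkl using Nat.le_induction generalizing m1 m2 with
  | base => exact pot_up hw u hk m1 m2
  | succ l _ ih =>
    refine (pot_quarters l m1 m2 _).trans ?_
    have a1 := ih (2 * m1) (2 * m2)
    have a2 := ih (2 * m1) (2 * m2 + 1)
    have a3 := ih (2 * m1 + 1) (2 * m2)
    have a4 := ih (2 * m1 + 1) (2 * m2 + 1)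
    rw [pow_succ]
    linarith

/-- the mass balance of one scale on one square of this scale -/
theorem mass_up_sq (w : ℝ) {N : ℕ} (u : ℤ → ℤ → V) {k : ℕ} (hk : k ≤ N) (m1 m2 : ℤ) :
    mass (iv k m1) (iv k m2) (up w N u k) +
      ∑ i ∈ range (ct w N u k m1 m2), ∑ x ∈ iv k m1, ∑ y ∈ iv k m2, sf w N u k i x y ^ 2 ≤
      mass (iv k m1) (iv k m2) (up w N u (k + 1)) := by
  have h := mass_itr (w := w) (iv k m1) (iv k m2) (up w N u (k + 1)) (ct w N u k m1 m2)
  have e1 : mass (iv k m1) (iv k m2) (up w N u k) =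
      mass (iv k m1) (iv k m2) (itr w (iv k m2) (up w N u (k + 1)) (ct w N u k m1 m2)) := by
    unfold mass
    refine sum_congr rfl fun x hx => sum_congr rfl fun y hy => ?_
    rw [up_step w N u hk, trt_eq_itr hx hy]
    rfl
  have e2 : ∀ i, ∑ x ∈ iv k m1, ∑ y ∈ iv k m2, sf w N u k i x y ^ 2 =
      ∑ x ∈ iv k m1, ∑ y ∈ iv k m2,
        cf w (iv k m2) (itr w (iv k m2) (up w N u (k + 1)) i) x y ^ 2 := by
    intro i
    refine sum_congr rfl fun x _ => sum_congr rfl fun y hy => ?_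
    rw [mem_iv] at hy
    unfold sf
    rw [hy]
  rw [e1, sum_congr rfl fun i _ => e2 i]
  exact h

/-- the number of directions against the energies split off -/
theorem ct_mul_le {w : ℝ} (hw : 0 ≤ w) (N : ℕ) (u : ℤ → ℤ → V) (k : ℕ) (m1 m2 : ℤ) :
    (ct w N u k m1 m2) * (w * 4 ^ k) ≤
      4 * ∑ i ∈ range (ct w N u k m1 m2), ∑ x ∈ iv k m1, ∑ y ∈ iv k m2, sf w N u k i x y ^ 2 := by
  have h := cnt_mul_le hw (iv k m1) (iv k m2) (up w N u (k + 1))
  rw [Vale.Agent.P141.PL.card_iv, Vale.Agent.P141.PL.card_iv] at h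
  have e0 : (((2 ^ k : ℕ) : ℝ) * ((2 ^ k : ℕ) : ℝ)) = 4 ^ k := by
    push_cast; rw [← mul_pow]; norm_num
  rw [e0] at h
  refine h.trans (le_of_eq ?_)
  congr 1
  refine sum_congr rfl fun i _ => sum_congr rfl fun x _ => sum_congr rfl fun y hy => ?_
  rw [mem_iv] at hy
  unfold sf
  rw [hy]

/-- The squares of scale `k ≤ N` of the root square. -/
def sqs (N : ℕ) (R S : ℤ) (k : ℕ) : Finset (ℤ × ℤ) := iv (N - k) R ×ˢ iv (N - k) S

/-- A sum over the root square is the sum over the squares of a scale. -/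
theorem sum_iv_split {N k : ℕ} (hk : k ≤ N) (R : ℤ) (f : ℤ → ℝ) :
    ∑ x ∈ iv N R, f x = ∑ m ∈ iv (N - k) R, ∑ x ∈ iv k m, f x := by
  rw [← sum_fiberwise_of_maps_to (s := iv N R) (t := iv (N - k) R) (g := fun x => ix k x)]
  · refine sum_congr rfl fun m hm => sum_congr ?_ fun _ _ => rfl
    ext x
    rw [mem_filter, mem_iv, mem_iv]
    constructor
    · exact fun h => h.2
    · intro h
      refine ⟨?_, h⟩
      rw [mem_iv] at hm
      have h2 := Vale.Agent.P141.PL.ix_ix k (N - k) x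
      rw [h, hm, show k + (N - k) = N by omega] at h2
      exact h2.symm
  · intro x hx
    rw [mem_iv] at hx ⊢
    rw [Vale.Agent.P141.PL.ix_ix, show k + (N - k) = N by omega]
    exact hx

theorem sum_sq_split {N k : ℕ} (hk : k ≤ N) (R S : ℤ) (f : ℤ → ℤ → ℝ) :
    ∑ x ∈ iv N R, ∑ y ∈ iv N S, f x y =
      ∑ m ∈ sqs N R S k, ∑ x ∈ iv k m.1, ∑ y ∈ iv k m.2, f x y := by
  unfold sqs
  rw [sum_product, sum_iv_split hk R]
  refine sum_congr rfl fun m1 _ => ?_
  have h : ∀ x ∈ iv k m1, ∑ y ∈ iv N S, f x y =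
      ∑ m2 ∈ iv (N - k) S, ∑ y ∈ iv k m2, f x y := fun x _ => sum_iv_split hk S _
  rw [sum_congr rfl h, sum_comm]

theorem mass_split {N k : ℕ} (hk : k ≤ N) (R S : ℤ) (g : ℤ → ℤ → V) :
    mass (iv N R) (iv N S) g = ∑ m ∈ sqs N R S k, mass (iv k m.1) (iv k m.2) g := by
  unfold mass
  exact sum_sq_split hk R S _

/-- **Mass balance** on the root square. -/
theorem mass_up (w : ℝ) {N : ℕ} (R S : ℤ) (u : ℤ → ℤ → V) {k : ℕ} (hk : k ≤ N + 1) :
    mass (iv N R) (iv N S) (up w N u k) + ∑ j ∈ Ico k (N + 1), ∑ m ∈ sqs N R S j,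
      ∑ i ∈ range (ct w N u j m.1 m.2), ∑ x ∈ iv j m.1, ∑ y ∈ iv j m.2, sf w N u j i x y ^ 2 ≤
      mass (iv N R) (iv N S) u := by
  induction hk using Nat.decreasingInduction with
  | self => rw [up_top w N u le_rfl, Ico_self, sum_empty, add_zero]
  | of_succ k hk ih =>
    have hkN : k ≤ N := by omega
    have h1 := sum_le_sum fun (m : ℤ × ℤ) (_ : m ∈ sqs N R S k) => mass_up_sq w u hkN m.1 m.2
    rw [sum_add_distrib, ← mass_split hkN, ← mass_split hkN] at h1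
    rw [sum_eq_sum_Ico_succ_bot (by omega : k < N + 1)]
    linarith

/-- **The number of split off directions.** -/
theorem sum_ct_le {w : ℝ} (hw : 0 ≤ w) {N : ℕ} (R S : ℤ) (u : ℤ → ℤ → V) (k : ℕ) :
    w * ∑ j ∈ Ico k (N + 1), ∑ m ∈ sqs N R S j, (ct w N u j m.1 m.2 : ℝ) * 4 ^ j ≤
      4 * mass (iv N R) (iv N S) u := by
  rcases Nat.lt_or_ge (N + 1) k with h | h
  · rw [Ico_eq_empty (by omega), sum_empty, mul_zero]
    have := mass_nonneg (iv N R) (iv N S) u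
    linarith
  have h1 := mass_up w R S u h
  have h2 := mass_nonneg (iv N R) (iv N S) (up w N u k)
  have h3 : w * ∑ j ∈ Ico k (N + 1), ∑ m ∈ sqs N R S j, (ct w N u j m.1 m.2 : ℝ) * 4 ^ j ≤
      4 * ∑ j ∈ Ico k (N + 1), ∑ m ∈ sqs N R S j,
      ∑ i ∈ range (ct w N u j m.1 m.2), ∑ x ∈ iv j m.1, ∑ y ∈ iv j m.2, sf w N u j i x y ^ 2 := by
    rw [mul_sum, mul_sum]
    refine sum_le_sum fun j _ => ?_
    rw [mul_sum, mul_sum]
    refine sum_le_sum fun m _ => (le_of_eq (by ring)).trans (ct_mul_le hw N u j m.1 m.2)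
  linarith

/-- the energy of a split off function is at most the energy of `u` -/
theorem abs_sf_le (w : ℝ) (N : ℕ) (u : ℤ → ℤ → V) (k i : ℕ) (x y : ℤ) :
    |sf w N u k i x y| ≤ ‖u x y‖ := by
  rw [sf_eq]
  refine (abs_real_inner_le_norm _ _).trans ?_
  have h1 := (norm_itr_le w (iv k (ix k y)) (up w N u (k + 1)) i x y).trans
    (norm_up_le w N u (k + 1) x y)
  calc _ ≤ ‖u x y‖ * 1 :=
        mul_le_mul h1 (norm_sd w N u k i (ix k y) x) (norm_nonneg _) (norm_nonneg _)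
    _ = ‖u x y‖ := mul_one _

end

end Vale.Agent.P141.H971
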