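import Vale.Agent.P141.H971.EndW

/-!
# P141, line (A): END value of the weighted own functional, sub-gauge with heavy columns

`K x * K x = l + Gf x` with `gm B u x ≤ Gf x` (`u` a part of the gauge which defines `K`); the
columns of `u` are at most `R` off the set `H`, the columns in `H` have the mass `mh`.
-/

namespace Vale.Agent.P141.H971

noncomputable section

open scoped BigOperators
open Matrix Finset
open Vale.Agent.P141.PL.H315 (avg avg_nonneg Tri atm e12 e13 e23)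
open Vale.Agent.P141.H550 (avg_prod avg_comm avg_const avg_congr avg_mono avg_mul_left
  avg_mul_right avg_add abs_avg_le abs_avg_le_of avg_mul_sq_le)
open Vale.Agent.P141.H834 (UnifP LineB gf)
open Vale.Agent.P141.H204 (mo4t mo4t_le vn vn_sq)
open Vale.Agent.P141.H703

set_option linter.unusedSectionVars false

variable {κ : Type*} [Fintype κ] [DecidableEq κ]

/-- **END value of the weighted own functional on one box**, sub-gauge, heavy columns `H`. -/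
theorem end_own_col {d e Λ l R m mh : ℝ} (hd : 0 < d) (he : 1 ≤ e) (hl : 0 < l) (hΛ : 0 < Λ) (hR : 0 ≤ R)
    {A B C : Finset ℤ} (hA : A.Nonempty) (hB : B.Nonempty) {G : ℤ × ℤ × ℤ → ℝ}
    (hU : UnifP d A B C G) (hL : LineB e A B C G) (u : κ → ℤ → ℤ → ℝ)
    (hu : ∀ x ∈ A, ∀ y ∈ B, ∑ i, u i x y ^ 2 ≤ 1)
    (H : ℤ → Prop) [DecidablePred H]
    (hcol : ∀ y ∈ B, ¬ H y → (avg A fun x => ∑ i, u i x y ^ 2) ≤ R)
    (hh : (avg B fun y => if H y then (avg A fun x => ∑ i, u i x y ^ 2) else 0) ≤ mh)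
    (hm : (avg A fun x => avg B fun y => ∑ i, u i x y ^ 2) ≤ m)
    (K : ℤ → Matrix κ κ ℝ) (hK : ∀ x ∈ A, (K x).PosDef)
    (Gf : ℤ → Matrix κ κ ℝ) (hKG : ∀ x ∈ A, K x * K x = l • (1 : Matrix κ κ ℝ) + Gf x)
    (hGf : ∀ x ∈ A, ∀ v : κ → ℝ, v ⬝ᵥ gm B u x *ᵥ v ≤ v ⬝ᵥ Gf x *ᵥ v) (N : ℕ) :
    l * (avg B fun c => avg B fun y => avg C fun z => (avg A fun x =>
        ((fun i => u i x y) ⬝ᵥ (K x)⁻¹ *ᵥ (fun i => u i x c)) *
          (G (x, y, z) * G (x, c, z))) ^ 2) ≤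
      5760000 * (d ^ 2 * e) * ((√(l / Λ) * m + mh) * √(√(l / Λ) * m + mh)) +
        46080000 * (d ^ 2 * e) * ((1 / 2) ^ N * (m * √m)) +
        16384 * N ^ 2 * e ^ 3 * (m * u4T d Λ R) := by
  classical
  have hq : ∀ x ∈ A, ∀ v : κ → ℝ, 0 ≤ v ⬝ᵥ Gf x *ᵥ v := fun x hx v => by
    refine le_trans ?_ (hGf x hx v)
    rw [gm_quad]; exact avg_nonneg fun _ _ => sq_nonneg _
  have hf : ∀ x : ℤ, ∃ (U : Matrix κ κ ℝ) (k : κ → ℝ), x ∈ A →
      (Uᵀ * U = 1 ∧ U * Uᵀ = 1 ∧ (∀ i, 0 < k i) ∧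
      (∀ i, l ≤ k i ^ 2) ∧ ((K x)⁻¹ = fc U k fun t => t⁻¹) ∧
      (Gf x = fc U k fun t => t ^ 2 - l)) := by
    intro x
    by_cases hx : x ∈ A
    · obtain ⟨U, k, h⟩ := frame (hK x hx) (hq x hx) (hKG x hx)
      exact ⟨U, k, fun _ => h⟩
    · exact ⟨1, fun _ => 1, fun h => absurd h hx⟩
  choose U k hUk using hf
  let w : κ → ℤ → ℤ → ℝ := fun i x y => (fc (U x) (k x) (sW l) *ᵥ fun j => u j x y) i
  let a0 : κ → ℤ → ℤ → ℝ := fun i x y => (fc (U x) (k x) (sL l Λ) *ᵥ fun j => u j x y) i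
  let r0 : κ → ℤ → ℤ → ℝ := fun i x y => (fc (U x) (k x) (sH l Λ) *ᵥ fun j => u j x y) i
  let a : κ → ℤ → ℤ → ℝ := fun i x y => if H y then 0 else a0 i x y
  let r : κ → ℤ → ℤ → ℝ := fun i x y => if H y then w i x y else r0 i x y
  have hsum0 : ∀ i, ∀ x ∈ A, ∀ y ∈ B, w i x y = a0 i x y + r0 i x y := by
    intro i x hx y _
    obtain ⟨_, _, h3, h4, _, _⟩ := hUk x hx
    show (fc (U x) (k x) (sW l) *ᵥ _) i = (fc (U x) (k x) (sL l Λ) *ᵥ _) i +
      (fc (U x) (k x) (sH l Λ) *ᵥ _) i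
    rw [fc_mulVec, fc_mulVec, fc_mulVec, ← Pi.add_apply, ← mulVec_add]
    congr 2
    ext j
    rw [Pi.add_apply, ← add_mul, sL_add_sH hΛ (h4 j)]
  have hsum : ∀ i, ∀ x ∈ A, ∀ y ∈ B, w i x y = a i x y + r i x y := by
    intro i x hx y hy
    simp only [a, r]
    split_ifs with h
    · rw [zero_add]
    · exact hsum0 i x hx y hy
  have hw0 : (0 : ℝ) ≤ √(l / Λ) := Real.sqrt_nonneg _
  have hu0 : ∀ x y, 0 ≤ ∑ i, u i x y ^ 2 := fun x y => Finset.sum_nonneg fun _ _ => sq_nonneg _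
  have hww : ∀ x ∈ A, ∀ y ∈ B, ∑ i, w i x y ^ 2 ≤ ∑ i, u i x y ^ 2 := by
    intro x hx y _
    obtain ⟨h1, h2, h3, h4, _, _⟩ := hUk x hx
    have := fc_sq_le h1 h2 (φ := sW l) (c := 1) (fun i => sW_sq_le (h3 i) (h4 i))
      (fun j => u j x y)
    rwa [one_mul] at this
  have hra0 : ∀ x ∈ A, ∀ y ∈ B, ∑ i, a0 i x y ^ 2 ≤ ∑ i, u i x y ^ 2 := by
    intro x hx y _
    obtain ⟨h1, h2, h3, h4, _, _⟩ := hUk x hx
    have := fc_sq_le h1 h2 (φ := sL l Λ) (c := 1) (fun i => sL_sq_le hΛ (h3 i) (h4 i))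
      (fun j => u j x y)
    rwa [one_mul] at this
  have hra : ∀ x ∈ A, ∀ y ∈ B, ∑ i, a i x y ^ 2 ≤ ∑ i, u i x y ^ 2 := by
    intro x hx y hy
    simp only [a]
    split_ifs with h
    · simpa using hu0 x y
    · exact hra0 x hx y hy
  have hrr0 : ∀ x ∈ A, ∀ y ∈ B, ∑ i, r0 i x y ^ 2 ≤ √(l / Λ) * ∑ i, u i x y ^ 2 := by
    intro x hx y _
    obtain ⟨h1, h2, h3, h4, _, _⟩ := hUk x hx
    exact fc_sq_le h1 h2 (fun i => sH_sq_le hl hΛ (h3 i) (h4 i)) _
  have hrr : ∀ x ∈ A, ∀ y ∈ B, ∑ i, r i x y ^ 2 ≤ √(l / Λ) * (∑ i, u i x y ^ 2) +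
      if H y then ∑ i, u i x y ^ 2 else 0 := by
    intro x hx y hy
    simp only [r]
    split_ifs with h
    · exact (hww x hx y hy).trans (le_add_of_nonneg_left (mul_nonneg hw0 (hu0 x y)))
    · rw [add_zero]; exact hrr0 x hx y hy
  have hrr1 : ∀ x ∈ A, ∀ y ∈ B, ∑ i, r i x y ^ 2 ≤ ∑ i, u i x y ^ 2 := by
    intro x hx y hy
    by_cases hH : H y
    · simp only [r, if_pos hH]
      exact hww x hx y hy
    simp only [r, if_neg hH]
    obtain ⟨h1, h2, h3, h4, _, _⟩ := hUk x hx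
    have h5 : ∀ i, sH l Λ (k x i) ^ 2 ≤ 1 := by
      intro i
      unfold sH
      rw [mul_pow]
      have g1 : 0 < Λ + (k x i ^ 2 - l) := by have := h4 i; linarith
      have g2 : ((k x i ^ 2 - l) / (Λ + (k x i ^ 2 - l))) ^ 2 ≤ 1 := by
        refine pow_le_one₀ (div_nonneg (by have := h4 i; linarith) g1.le) ?_
        rw [div_le_one g1]; linarith
      calc _ ≤ 1 * 1 := mul_le_mul (sW_sq_le (h3 i) (h4 i)) g2 (sq_nonneg _) zero_le_one
        _ = 1 := one_mul _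
    have := fc_sq_le h1 h2 (φ := sH l Λ) (c := 1) h5 (fun j => u j x y)
    rwa [one_mul] at this
  have hop : ∀ x ∈ A, ∀ v : κ → ℝ,
      (avg B fun y => (∑ i, a i x y * v i) ^ 2) ≤ Λ * ∑ i, v i ^ 2 := by
    intro x hx v
    obtain ⟨h1, h2, h3, h4, _, h6⟩ := hUk x hx
    have e0 : (avg B fun y => (∑ i, a i x y * v i) ^ 2) ≤
        avg B fun y => (∑ i, a0 i x y * v i) ^ 2 := by
      refine avg_mono fun y _ => ?_
      simp only [a]
      split_ifs with h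
      · simpa using sq_nonneg (∑ i, a0 i x y * v i)
      · exact le_rfl
    refine e0.trans ?_
    have e1 : ∀ y, ∑ i, a0 i x y * v i = ∑ i, u i x y * (fc (U x) (k x) (sL l Λ) *ᵥ v) i := by
      intro y
      have e2 : ∑ i, a0 i x y * v i = v ⬝ᵥ (fc (U x) (k x) (sL l Λ) *ᵥ fun j => u j x y) :=
        Finset.sum_congr rfl fun i _ => mul_comm _ _
      have e3 : ∑ i, u i x y * (fc (U x) (k x) (sL l Λ) *ᵥ v) i =
          (fun j => u j x y) ⬝ᵥ (fc (U x) (k x) (sL l Λ) *ᵥ v) := rfl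
      rw [e2, e3, fc_symm, fc_symm]
      exact Finset.sum_congr rfl fun i _ => by ring
    have e4 : (avg B fun y => (∑ i, a0 i x y * v i) ^ 2) =
        (fc (U x) (k x) (sL l Λ) *ᵥ v) ⬝ᵥ gm B u x *ᵥ (fc (U x) (k x) (sL l Λ) *ᵥ v) := by
      rw [gm_quad]
      exact avg_congr fun y _ => by rw [e1]
    rw [e4]
    refine (hGf x hx _).trans ?_
    rw [h6]
    have e5 : ∑ i, v i ^ 2 = v ⬝ᵥ v := Finset.sum_congr rfl fun i _ => by ring
    rw [e5, H483.norm_diag h2, fc_symm, Finset.mul_sum]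
    refine Finset.sum_le_sum fun i _ => ?_
    have e7 : ((U x)ᵀ *ᵥ (fc (U x) (k x) (sL l Λ) *ᵥ v)) i =
        sL l Λ (k x i) * ((U x)ᵀ *ᵥ v) i := by
      rw [fc_mulVec, mulVec_mulVec, h1, one_mulVec]
    rw [e7]
    calc (k x i ^ 2 - l) * (sL l Λ (k x i) * ((U x)ᵀ *ᵥ v) i * (sL l Λ (k x i) * ((U x)ᵀ *ᵥ v) i))
        = sL l Λ (k x i) * sL l Λ (k x i) * (k x i ^ 2 - l) * ((U x)ᵀ *ᵥ v) i ^ 2 := by ring
      _ ≤ Λ * ((U x)ᵀ *ᵥ v) i ^ 2 :=
        mul_le_mul_of_nonneg_right (sL_pot hΛ (h3 i) (h4 i)) (sq_nonneg _)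
  have hτ : (avg A fun x => avg B fun y => ∑ i, r i x y ^ 2) ≤ √(l / Λ) * m + mh := by
    have g1 : (avg A fun x => avg B fun y => ∑ i, r i x y ^ 2) ≤
        avg A fun x => ((√(l / Λ) * avg B fun y => ∑ i, u i x y ^ 2) +
          avg B fun y => if H y then ∑ i, u i x y ^ 2 else 0) := by
      refine avg_mono fun x hx => ?_
      rw [← avg_mul_left, ← avg_add]
      exact avg_mono fun y hy => hrr x hx y hy
    refine g1.trans ?_
    rw [avg_add, avg_mul_left]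
    refine add_le_add (mul_le_mul_of_nonneg_left hm hw0) ?_
    rw [avg_comm]
    refine le_trans (le_of_eq (avg_congr fun y _ => ?_)) hh
    split_ifs with h
    · rfl
    · unfold avg; simp
  have main := e2H hd he hΛ.le hR hA hB hU hL hsum
    (fun x hx y hy => (hrr1 x hx y hy).trans (hu x hx y hy)) hτ
    (fun x hx y hy => (hra x hx y hy).trans (hu x hx y hy)) hop
    (fun y hy => by
      by_cases hH : H y
      · have e0 : (avg A fun x => ∑ i, a i x y ^ 2) = 0 := by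
          unfold avg; simp only [a, if_pos hH]; simp
        rw [e0]; exact hR
      · exact (avg_mono fun x hx => hra x hx y hy).trans (hcol y hy hH))
    ((avg_mono fun x hx => avg_mono fun y hy => hra x hx y hy).trans hm) N
  refine le_trans (le_of_eq ?_) main
  rw [mo4t_eq, ← avg_mul_left]
  refine avg_congr fun c hc => ?_
  rw [← avg_mul_left]
  refine avg_congr fun y hy => ?_
  rw [← avg_mul_left]
  refine avg_congr fun z hz => ?_
  have e1 : (avg A fun x => inner ℝ (euc w x y) (euc w x c) * (G (x, y, z) * G (x, c, z))) =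
      √l * avg A fun x => ((fun i => u i x y) ⬝ᵥ (K x)⁻¹ *ᵥ (fun i => u i x c)) *
          (G (x, y, z) * G (x, c, z)) := by
    rw [← avg_mul_left]
    refine avg_congr fun x hx => ?_
    obtain ⟨h1, h2, h3, h4, h5, _⟩ := hUk x hx
    have e2 : inner ℝ (euc w x y) (euc w x c) =
        (fc (U x) (k x) (sW l) *ᵥ fun j => u j x y) ⬝ᵥ
          (fc (U x) (k x) (sW l) *ᵥ fun j => u j x c) := by
      rw [inner_euc]
      rfl
    have e3 : ∀ i, sW l (k x i) * sW l (k x i) = √l * (k x i)⁻¹ := fun i => by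
      rw [← sW_sq (h3 i)]; ring
    have e4 : (fc (U x) (k x) (sW l) *ᵥ fun j => u j x y) ⬝ᵥ
        (fc (U x) (k x) (sW l) *ᵥ fun j => u j x c) =
        √l * ((fun i => u i x y) ⬝ᵥ (K x)⁻¹ *ᵥ (fun i => u i x c)) := by
      rw [fc_dot h1, h5, fc_symm, Finset.mul_sum]
      refine Finset.sum_congr rfl fun i _ => ?_
      rw [e3]
      ring
    rw [e2, e4]
    ring
  rw [e1, mul_pow, Real.sq_sqrt hl.le]

end

end Vale.Agent.P141.H971
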