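import Vale.Agent.P141.H703.E2H
import Vale.Agent.P141.H483.Gap

/-!
# P141, line (A) / TripleLog: END value of the functional with the weight `(l + G)^{-1/2}`

On one box `A × B × C`, `u : κ → ℤ → ℤ → ℝ` a gauge with labels, `gm B u x` the Gram matrix of the
labels on the row `x`, `K x` the positive square root of `l + gm B u x`.
`end_own`: the own energy of the kernel `u(x,y) · K x⁻¹ u(x,c)` against `G G` is at most
`l⁻¹` times the (U4) value of the part of potential `≤ Λ` plus the mass `√(l/Λ) m` part.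
-/

namespace Vale.Agent.P141.H971

noncomputable section

open scoped BigOperators
open Matrix Finset
open Vale.Agent.P141.PL.H315 (avg avg_nonneg Tri atm e12 e13 e23)
open Vale.Agent.P141.H550 (avg_prod avg_comm avg_const avg_congr avg_mono avg_mul_left
  avg_mul_right avg_add abs_avg_le abs_avg_le_of avg_mul_sq_le)
open Vale.Agent.P141.H834 (UnifP LineB gf)
open Vale.Agent.P141.H204 (mo4t mo4t_le vn vn_sq)
open Vale.Agent.P141.H703

set_option linter.unusedSectionVars false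

variable {κ : Type*} [Fintype κ] [DecidableEq κ]

/-- functional calculus in a fixed orthogonal frame -/
def fc (U : Matrix κ κ ℝ) (k : κ → ℝ) (φ : ℝ → ℝ) : Matrix κ κ ℝ :=
  U * diagonal (fun i => φ (k i)) * Uᵀ

theorem fc_mulVec (U : Matrix κ κ ℝ) (k : κ → ℝ) (φ : ℝ → ℝ) (a : κ → ℝ) :
    fc U k φ *ᵥ a = U *ᵥ fun i => φ (k i) * (Uᵀ *ᵥ a) i := by
  unfold fc
  rw [← mulVec_mulVec, ← mulVec_mulVec]
  congr 1
  ext i
  rw [mulVec_diagonal]

theorem dot_U {U : Matrix κ κ ℝ} (h1 : Uᵀ * U = 1) (a b : κ → ℝ) :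
    (U *ᵥ a) ⬝ᵥ (U *ᵥ b) = a ⬝ᵥ b := by
  rw [H483.dot_mulVec, mulVec_mulVec, h1, one_mulVec]

theorem fc_dot {U : Matrix κ κ ℝ} (h1 : Uᵀ * U = 1) (k : κ → ℝ) (φ ψ : ℝ → ℝ) (a b : κ → ℝ) :
    (fc U k φ *ᵥ a) ⬝ᵥ (fc U k ψ *ᵥ b) =
      ∑ i, φ (k i) * ψ (k i) * ((Uᵀ *ᵥ a) i * (Uᵀ *ᵥ b) i) := by
  rw [fc_mulVec, fc_mulVec, dot_U h1]
  exact Finset.sum_congr rfl fun i _ => by ring

theorem fc_symm (U : Matrix κ κ ℝ) (k : κ → ℝ) (φ : ℝ → ℝ) (a b : κ → ℝ) :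
    a ⬝ᵥ (fc U k φ *ᵥ b) = ∑ i, φ (k i) * ((Uᵀ *ᵥ a) i * (Uᵀ *ᵥ b) i) := by
  rw [fc_mulVec, H483.dot_mulVec]
  exact Finset.sum_congr rfl fun i _ => by ring

theorem fc_sq_le {U : Matrix κ κ ℝ} (h1 : Uᵀ * U = 1) (h2 : U * Uᵀ = 1) {k : κ → ℝ} {φ : ℝ → ℝ}
    {c : ℝ} (hc : ∀ i, φ (k i) ^ 2 ≤ c) (a : κ → ℝ) :
    ∑ i, (fc U k φ *ᵥ a) i ^ 2 ≤ c * ∑ i, a i ^ 2 := by
  have e1 : ∑ i, (fc U k φ *ᵥ a) i ^ 2 = (fc U k φ *ᵥ a) ⬝ᵥ (fc U k φ *ᵥ a) :=
    Finset.sum_congr rfl fun i _ => by ring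
  have e2 : ∑ i, a i ^ 2 = a ⬝ᵥ a := Finset.sum_congr rfl fun i _ => by ring
  rw [e1, e2, fc_dot h1, H483.norm_diag h2, Finset.mul_sum]
  refine Finset.sum_le_sum fun i _ => ?_
  calc φ (k i) * φ (k i) * ((Uᵀ *ᵥ a) i * (Uᵀ *ᵥ a) i) = φ (k i) ^ 2 * (Uᵀ *ᵥ a) i ^ 2 := by ring
    _ ≤ c * (Uᵀ *ᵥ a) i ^ 2 := mul_le_mul_of_nonneg_right (hc i) (sq_nonneg _)

/-- the Gram matrix of the labels on the row `x` -/
def gm (B : Finset ℤ) (u : κ → ℤ → ℤ → ℝ) (x : ℤ) : Matrix κ κ ℝ :=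
  Matrix.of fun i j => avg B fun y => u i x y * u j x y

theorem gm_quad (B : Finset ℤ) (u : κ → ℤ → ℤ → ℝ) (x : ℤ) (v : κ → ℝ) :
    v ⬝ᵥ gm B u x *ᵥ v = avg B fun y => (∑ l, u l x y * v l) ^ 2 := by
  have e1 : ∀ y, (∑ l, u l x y * v l) ^ 2 = ∑ i, ∑ j, v i * (u i x y * u j x y * v j) := by
    intro y
    rw [sq, Finset.sum_mul_sum]
    exact Finset.sum_congr rfl fun i _ => Finset.sum_congr rfl fun j _ => by ring
  simp only [e1]
  rw [H550.avg_sum]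
  unfold gm
  simp only [dotProduct, mulVec, of_apply]
  refine Finset.sum_congr rfl fun i _ => ?_
  rw [H550.avg_sum, Finset.mul_sum]
  refine Finset.sum_congr rfl fun j _ => ?_
  rw [avg_mul_left]
  congr 1
  rw [avg_mul_right]

/-- the frame of `K`, `K² = l + G`: `G` has the entries `k² - l ≥ 0` -/
theorem frame {K G : Matrix κ κ ℝ} {l : ℝ} (hK : K.PosDef)
    (hG : ∀ v : κ → ℝ, 0 ≤ v ⬝ᵥ G *ᵥ v) (h : K * K = l • (1 : Matrix κ κ ℝ) + G) :
    ∃ (U : Matrix κ κ ℝ) (k : κ → ℝ), Uᵀ * U = 1 ∧ U * Uᵀ = 1 ∧ (∀ i, 0 < k i) ∧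
      (∀ i, l ≤ k i ^ 2) ∧ (K⁻¹ = fc U k fun t => t⁻¹) ∧ (G = fc U k fun t => t ^ 2 - l) := by
  obtain ⟨U, k, h1, h2, h3⟩ := H483.exists_diag hK.isHermitian
  have hd : ∀ i, 0 < k i := H483.eig_pos hK h1 h3
  have hG3 : G = fc U k fun t => t ^ 2 - l := by
    have e1 : G = K * K - l • (1 : Matrix κ κ ℝ) := by rw [h]; abel
    have e2 : K * K = U * diagonal (fun i => k i ^ 2) * Uᵀ := by
      rw [h3]
      calc U * diagonal k * Uᵀ * (U * diagonal k * Uᵀ)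
          = U * diagonal k * (Uᵀ * U) * diagonal k * Uᵀ := by simp only [Matrix.mul_assoc]
        _ = _ := by
          rw [h1, Matrix.mul_one, Matrix.mul_assoc U, diagonal_mul_diagonal]
          simp only [sq]
    have e3 : l • (1 : Matrix κ κ ℝ) = U * diagonal (fun _ => l) * Uᵀ := by
      have : diagonal (fun _ : κ => l) = l • (1 : Matrix κ κ ℝ) := by
        rw [← diagonal_one, ← diagonal_smul]
        congr 1
        ext i
        simp
      rw [this, Matrix.mul_smul, Matrix.mul_one, Matrix.smul_mul, h2]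
    rw [e1, e2, e3, ← Matrix.sub_mul, ← Matrix.mul_sub, diagonal_sub]
    rfl
  refine ⟨U, k, h1, h2, hd, ?_, ?_, hG3⟩
  · intro i
    have hp := hG (U *ᵥ Pi.single i (1 : ℝ))
    rw [hG3, fc_symm, Finset.sum_eq_single i] at hp
    · rw [mulVec_mulVec, h1, one_mulVec] at hp
      simpa using hp
    · intro j _ hj
      rw [mulVec_mulVec, h1, one_mulVec]
      simp [hj]
    · intro hi
      exact absurd (Finset.mem_univ i) hi
  · apply inv_eq_right_inv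
    unfold fc
    nth_rewrite 1 [h3]
    calc U * diagonal k * Uᵀ * (U * diagonal (fun i => (k i)⁻¹) * Uᵀ)
        = U * diagonal k * (Uᵀ * U) * diagonal (fun i => (k i)⁻¹) * Uᵀ := by
          simp only [Matrix.mul_assoc]
      _ = 1 := by
        rw [h1, Matrix.mul_one, Matrix.mul_assoc U, diagonal_mul_diagonal]
        have : (fun i => k i * (k i)⁻¹) = fun _ => (1 : ℝ) := by
          ext i; exact mul_inv_cancel₀ (hd i).ne'
        rw [this, diagonal_one, Matrix.mul_one, h2]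

/-- the three symbols: whole gauge, light part, heavy part -/
def sW (l : ℝ) (t : ℝ) : ℝ := √(√l * t⁻¹)

def sL (l Λ : ℝ) (t : ℝ) : ℝ := sW l t * (Λ / (Λ + (t ^ 2 - l)))

def sH (l Λ : ℝ) (t : ℝ) : ℝ := sW l t * ((t ^ 2 - l) / (Λ + (t ^ 2 - l)))

theorem sW_sq {l t : ℝ} (ht : 0 < t) : sW l t ^ 2 = √l * t⁻¹ := by
  unfold sW
  exact Real.sq_sqrt (mul_nonneg (Real.sqrt_nonneg _) (inv_nonneg.2 ht.le))

theorem sqrt_le_of_sq {l t : ℝ} (ht : 0 < t) (h : l ≤ t ^ 2) : √l ≤ t := by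
  rw [← Real.sqrt_sq ht.le]
  exact Real.sqrt_le_sqrt h

theorem sW_sq_le {l t : ℝ} (ht : 0 < t) (h : l ≤ t ^ 2) : sW l t ^ 2 ≤ 1 := by
  rw [sW_sq ht, ← div_eq_mul_inv, div_le_one ht]
  exact sqrt_le_of_sq ht h

theorem sL_add_sH {l Λ t : ℝ} (hΛ : 0 < Λ) (h : l ≤ t ^ 2) : sL l Λ t + sH l Λ t = sW l t := by
  unfold sL sH
  have : 0 < Λ + (t ^ 2 - l) := by linarith
  field_simp

theorem sL_sq_le {l Λ t : ℝ} (hΛ : 0 < Λ) (ht : 0 < t) (h : l ≤ t ^ 2) : sL l Λ t ^ 2 ≤ 1 := by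
  unfold sL
  rw [mul_pow]
  have h1 : 0 < Λ + (t ^ 2 - l) := by linarith
  have h2 : (Λ / (Λ + (t ^ 2 - l))) ^ 2 ≤ 1 := by
    refine pow_le_one₀ (by positivity) ?_
    rw [div_le_one h1]; linarith
  calc _ ≤ 1 * 1 := mul_le_mul (sW_sq_le ht h) h2 (sq_nonneg _) zero_le_one
    _ = 1 := one_mul _

theorem sL_pot {l Λ t : ℝ} (hΛ : 0 < Λ) (ht : 0 < t) (h : l ≤ t ^ 2) :
    sL l Λ t * sL l Λ t * (t ^ 2 - l) ≤ Λ := by
  have h1 : 0 < Λ + (t ^ 2 - l) := by linarith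
  have h0 : 0 ≤ t ^ 2 - l := by linarith
  have e1 : sL l Λ t * sL l Λ t * (t ^ 2 - l) =
      sW l t ^ 2 * (Λ * (Λ / (Λ + (t ^ 2 - l)) * ((t ^ 2 - l) / (Λ + (t ^ 2 - l))))) := by
    unfold sL
    field_simp
  rw [e1]
  have h2 : Λ / (Λ + (t ^ 2 - l)) * ((t ^ 2 - l) / (Λ + (t ^ 2 - l))) ≤ 1 := by
    have a1 : Λ / (Λ + (t ^ 2 - l)) ≤ 1 := by rw [div_le_one h1]; linarith
    have a2 : (t ^ 2 - l) / (Λ + (t ^ 2 - l)) ≤ 1 := by rw [div_le_one h1]; linarith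
    calc _ ≤ 1 * 1 := mul_le_mul a1 a2 (by positivity) zero_le_one
      _ = 1 := one_mul _
  calc _ ≤ 1 * (Λ * 1) := mul_le_mul (sW_sq_le ht h) (mul_le_mul_of_nonneg_left h2 hΛ.le)
        (mul_nonneg hΛ.le (mul_nonneg (by positivity) (by positivity))) zero_le_one
    _ = Λ := by ring

theorem sH_sq_le {l Λ t : ℝ} (hl : 0 < l) (hΛ : 0 < Λ) (ht : 0 < t) (h : l ≤ t ^ 2) :
    sH l Λ t ^ 2 ≤ √(l / Λ) := by
  have h1 : 0 < Λ + (t ^ 2 - l) := by linarith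
  have h0 : 0 ≤ t ^ 2 - l := by linarith
  set g : ℝ := t ^ 2 - l with hg
  have hsl : 0 < √l := Real.sqrt_pos.2 hl
  have hsΛ : 0 < √Λ := Real.sqrt_pos.2 hΛ
  unfold sH
  rw [mul_pow, sW_sq ht, ← hg, Real.sqrt_div hl.le]
  -- `√l t⁻¹ (g/(Λ+g))² ≤ √l / √Λ`
  have h2 : √g ≤ t := by
    rw [← Real.sqrt_sq ht.le]
    exact Real.sqrt_le_sqrt (by rw [hg]; linarith)
  have hsg : 0 ≤ √g := Real.sqrt_nonneg _
  have e1 : √g ^ 2 = g := Real.sq_sqrt h0
  have e2 : √Λ ^ 2 = Λ := Real.sq_sqrt hΛ.le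
  have key : √Λ * g ^ 2 ≤ t * (Λ + g) ^ 2 := by
    have k1 : √Λ * √g ≤ Λ + g := by nlinarith [sq_nonneg (√Λ - √g)]
    have k2 : √Λ * g ^ 2 = √Λ * √g * (√g * g) := by
      calc √Λ * g ^ 2 = √Λ * (√g ^ 2 * g) := by rw [e1]; ring
        _ = _ := by ring
    rw [k2]
    have k3 : √g * g ≤ t * (Λ + g) := mul_le_mul h2 (by linarith) h0 ht.le
    calc √Λ * √g * (√g * g) ≤ (Λ + g) * (t * (Λ + g)) :=
          mul_le_mul k1 k3 (mul_nonneg hsg h0) h1.le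
      _ = _ := by ring
  rw [div_pow, div_eq_mul_inv √l √Λ, mul_assoc]
  refine mul_le_mul_of_nonneg_left ?_ hsl.le
  rw [inv_mul_eq_div, div_div, div_le_iff₀ (by positivity), inv_mul_eq_div, le_div_iff₀ hsΛ]
  calc g ^ 2 * √Λ = √Λ * g ^ 2 := mul_comm _ _
    _ ≤ t * (Λ + g) ^ 2 := key
    _ = _ := by ring

/-- **END value of the weighted own functional on one box.** -/
theorem end_own {d e Λ l R m : ℝ} (hd : 0 < d) (he : 1 ≤ e) (hl : 0 < l) (hΛ : 0 < Λ) (hR : 0 ≤ R)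
    {A B C : Finset ℤ} (hA : A.Nonempty) (hB : B.Nonempty) {G : ℤ × ℤ × ℤ → ℝ}
    (hU : UnifP d A B C G) (hL : LineB e A B C G) (u : κ → ℤ → ℤ → ℝ)
    (hu : ∀ x ∈ A, ∀ y ∈ B, ∑ i, u i x y ^ 2 ≤ 1)
    (hcol : ∀ y ∈ B, (avg A fun x => ∑ i, u i x y ^ 2) ≤ R)
    (hm : (avg A fun x => avg B fun y => ∑ i, u i x y ^ 2) ≤ m)
    (K : ℤ → Matrix κ κ ℝ) (hK : ∀ x ∈ A, (K x).PosDef)
    (hKG : ∀ x ∈ A, K x * K x = l • (1 : Matrix κ κ ℝ) + gm B u x) (N : ℕ) :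
    l * (avg B fun c => avg B fun y => avg C fun z => (avg A fun x =>
        ((fun i => u i x y) ⬝ᵥ (K x)⁻¹ *ᵥ (fun i => u i x c)) *
          (G (x, y, z) * G (x, c, z))) ^ 2) ≤
      5760000 * (d ^ 2 * e) * ((√(l / Λ) * m) * √(√(l / Λ) * m)) +
        46080000 * (d ^ 2 * e) * ((1 / 2) ^ N * (m * √m)) +
        16384 * N ^ 2 * e ^ 3 * (m * u4T d Λ R) := by
  classical
  have hq : ∀ x : ℤ, ∀ v : κ → ℝ, 0 ≤ v ⬝ᵥ gm B u x *ᵥ v := fun x v => by
    rw [gm_quad]; exact avg_nonneg fun _ _ => sq_nonneg _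
  have hf : ∀ x : ℤ, ∃ (U : Matrix κ κ ℝ) (k : κ → ℝ), x ∈ A →
      (Uᵀ * U = 1 ∧ U * Uᵀ = 1 ∧ (∀ i, 0 < k i) ∧
      (∀ i, l ≤ k i ^ 2) ∧ ((K x)⁻¹ = fc U k fun t => t⁻¹) ∧
      (gm B u x = fc U k fun t => t ^ 2 - l)) := by
    intro x
    by_cases hx : x ∈ A
    · obtain ⟨U, k, h⟩ := frame (hK x hx) (hq x) (hKG x hx)
      exact ⟨U, k, fun _ => h⟩
    · exact ⟨1, fun _ => 1, fun h => absurd h hx⟩
  choose U k hUk using hf
  let w : κ → ℤ → ℤ → ℝ := fun i x y => (fc (U x) (k x) (sW l) *ᵥ fun j => u j x y) i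
  let a : κ → ℤ → ℤ → ℝ := fun i x y => (fc (U x) (k x) (sL l Λ) *ᵥ fun j => u j x y) i
  let r : κ → ℤ → ℤ → ℝ := fun i x y => (fc (U x) (k x) (sH l Λ) *ᵥ fun j => u j x y) i
  have hsum : ∀ i, ∀ x ∈ A, ∀ y ∈ B, w i x y = a i x y + r i x y := by
    intro i x hx y _
    obtain ⟨_, _, h3, h4, _, _⟩ := hUk x hx
    show (fc (U x) (k x) (sW l) *ᵥ _) i = (fc (U x) (k x) (sL l Λ) *ᵥ _) i +
      (fc (U x) (k x) (sH l Λ) *ᵥ _) i
    rw [fc_mulVec, fc_mulVec, fc_mulVec, ← Pi.add_apply, ← mulVec_add]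
    congr 2
    ext j
    rw [Pi.add_apply, ← add_mul, sL_add_sH hΛ (h4 j)]
  have hw0 : (0 : ℝ) ≤ √(l / Λ) := Real.sqrt_nonneg _
  have hra : ∀ x ∈ A, ∀ y ∈ B, ∑ i, a i x y ^ 2 ≤ ∑ i, u i x y ^ 2 := by
    intro x hx y _
    obtain ⟨h1, h2, h3, h4, _, _⟩ := hUk x hx
    have := fc_sq_le h1 h2 (φ := sL l Λ) (c := 1) (fun i => sL_sq_le hΛ (h3 i) (h4 i))
      (fun j => u j x y)
    rwa [one_mul] at this
  have hrr : ∀ x ∈ A, ∀ y ∈ B, ∑ i, r i x y ^ 2 ≤ √(l / Λ) * ∑ i, u i x y ^ 2 := by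
    intro x hx y _
    obtain ⟨h1, h2, h3, h4, _, _⟩ := hUk x hx
    exact fc_sq_le h1 h2 (fun i => sH_sq_le hl hΛ (h3 i) (h4 i)) _
  have hrr1 : ∀ x ∈ A, ∀ y ∈ B, ∑ i, r i x y ^ 2 ≤ ∑ i, u i x y ^ 2 := by
    intro x hx y _
    obtain ⟨h1, h2, h3, h4, _, _⟩ := hUk x hx
    have h5 : ∀ i, sH l Λ (k x i) ^ 2 ≤ 1 := by
      intro i
      unfold sH
      rw [mul_pow]
      have g1 : 0 < Λ + (k x i ^ 2 - l) := by have := h4 i; linarith
      have g2 : ((k x i ^ 2 - l) / (Λ + (k x i ^ 2 - l))) ^ 2 ≤ 1 := by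
        refine pow_le_one₀ (div_nonneg (by have := h4 i; linarith) g1.le) ?_
        rw [div_le_one g1]; linarith
      calc _ ≤ 1 * 1 := mul_le_mul (sW_sq_le (h3 i) (h4 i)) g2 (sq_nonneg _) zero_le_one
        _ = 1 := one_mul _
    have := fc_sq_le h1 h2 (φ := sH l Λ) (c := 1) h5 (fun j => u j x y)
    rwa [one_mul] at this
  have hop : ∀ x ∈ A, ∀ v : κ → ℝ,
      (avg B fun y => (∑ i, a i x y * v i) ^ 2) ≤ Λ * ∑ i, v i ^ 2 := by
    intro x hx v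
    obtain ⟨h1, h2, h3, h4, _, h6⟩ := hUk x hx
    have e1 : ∀ y, ∑ i, a i x y * v i = ∑ i, u i x y * (fc (U x) (k x) (sL l Λ) *ᵥ v) i := by
      intro y
      have e2 : ∑ i, a i x y * v i = v ⬝ᵥ (fc (U x) (k x) (sL l Λ) *ᵥ fun j => u j x y) :=
        Finset.sum_congr rfl fun i _ => mul_comm _ _
      have e3 : ∑ i, u i x y * (fc (U x) (k x) (sL l Λ) *ᵥ v) i =
          (fun j => u j x y) ⬝ᵥ (fc (U x) (k x) (sL l Λ) *ᵥ v) := rfl
      rw [e2, e3, fc_symm, fc_symm]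
      exact Finset.sum_congr rfl fun i _ => by ring
    have e4 : (avg B fun y => (∑ i, a i x y * v i) ^ 2) =
        (fc (U x) (k x) (sL l Λ) *ᵥ v) ⬝ᵥ gm B u x *ᵥ (fc (U x) (k x) (sL l Λ) *ᵥ v) := by
      rw [gm_quad]
      exact avg_congr fun y _ => by rw [e1]
    rw [e4, h6]
    have e5 : ∑ i, v i ^ 2 = v ⬝ᵥ v := Finset.sum_congr rfl fun i _ => by ring
    rw [e5, H483.norm_diag h2, fc_symm, Finset.mul_sum]
    refine Finset.sum_le_sum fun i _ => ?_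
    have e7 : ((U x)ᵀ *ᵥ (fc (U x) (k x) (sL l Λ) *ᵥ v)) i =
        sL l Λ (k x i) * ((U x)ᵀ *ᵥ v) i := by
      rw [fc_mulVec, mulVec_mulVec, h1, one_mulVec]
    rw [e7]
    calc (k x i ^ 2 - l) * (sL l Λ (k x i) * ((U x)ᵀ *ᵥ v) i * (sL l Λ (k x i) * ((U x)ᵀ *ᵥ v) i))
        = sL l Λ (k x i) * sL l Λ (k x i) * (k x i ^ 2 - l) * ((U x)ᵀ *ᵥ v) i ^ 2 := by ring
      _ ≤ Λ * ((U x)ᵀ *ᵥ v) i ^ 2 :=
        mul_le_mul_of_nonneg_right (sL_pot hΛ (h3 i) (h4 i)) (sq_nonneg _)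
  have hτ : (avg A fun x => avg B fun y => ∑ i, r i x y ^ 2) ≤ √(l / Λ) * m := by
    refine (avg_mono (g := fun x => √(l / Λ) * avg B fun y => ∑ i, u i x y ^ 2) fun x hx => ?_).trans ?_
    · rw [← avg_mul_left]
      exact avg_mono fun y hy => hrr x hx y hy
    · rw [avg_mul_left]
      exact mul_le_mul_of_nonneg_left hm hw0
  have main := e2H hd he hΛ.le hR hA hB hU hL hsum
    (fun x hx y hy => (hrr1 x hx y hy).trans (hu x hx y hy)) hτ
    (fun x hx y hy => (hra x hx y hy).trans (hu x hx y hy)) hop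
    (fun y hy => (avg_mono fun x hx => hra x hx y hy).trans (hcol y hy))
    ((avg_mono fun x hx => avg_mono fun y hy => hra x hx y hy).trans hm) N
  refine le_trans (le_of_eq ?_) main
  rw [mo4t_eq, ← avg_mul_left]
  refine avg_congr fun c hc => ?_
  rw [← avg_mul_left]
  refine avg_congr fun y hy => ?_
  rw [← avg_mul_left]
  refine avg_congr fun z hz => ?_
  have e1 : (avg A fun x => inner ℝ (euc w x y) (euc w x c) * (G (x, y, z) * G (x, c, z))) =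
      √l * avg A fun x => ((fun i => u i x y) ⬝ᵥ (K x)⁻¹ *ᵥ (fun i => u i x c)) *
          (G (x, y, z) * G (x, c, z)) := by
    rw [← avg_mul_left]
    refine avg_congr fun x hx => ?_
    obtain ⟨h1, h2, h3, h4, h5, _⟩ := hUk x hx
    have e2 : inner ℝ (euc w x y) (euc w x c) =
        (fc (U x) (k x) (sW l) *ᵥ fun j => u j x y) ⬝ᵥ
          (fc (U x) (k x) (sW l) *ᵥ fun j => u j x c) := by
      rw [inner_euc]
      rfl
    have e3 : ∀ i, sW l (k x i) * sW l (k x i) = √l * (k x i)⁻¹ := fun i => by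
      rw [← sW_sq (h3 i)]; ring
    have e4 : (fc (U x) (k x) (sW l) *ᵥ fun j => u j x y) ⬝ᵥ
        (fc (U x) (k x) (sW l) *ᵥ fun j => u j x c) =
        √l * ((fun i => u i x y) ⬝ᵥ (K x)⁻¹ *ᵥ (fun i => u i x c)) := by
      rw [fc_dot h1, h5, fc_symm, Finset.mul_sum]
      refine Finset.sum_congr rfl fun i _ => ?_
      rw [e3]
      ring
    rw [e2, e4]
    ring
  rw [e1, mul_pow, Real.sq_sqrt hl.le]

/-- the form of an average of vectors -/
theorem avg_form (B : Finset ℤ) (M : Matrix κ κ ℝ) (f : κ → ℤ → ℝ) :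
    (fun i => avg B (f i)) ⬝ᵥ M *ᵥ (fun i => avg B (f i)) =
      avg B fun c => avg B fun y => (fun i => f i y) ⬝ᵥ M *ᵥ (fun i => f i c) := by
  have e1 : ∀ c y, (fun i => f i y) ⬝ᵥ M *ᵥ (fun i => f i c) =
      ∑ i, ∑ j, M i j * (f i y * f j c) := by
    intro c y
    simp only [dotProduct, mulVec, Finset.mul_sum]
    exact Finset.sum_congr rfl fun i _ => Finset.sum_congr rfl fun j _ => by ring
  simp only [e1]
  have e2 : ∀ c, (avg B fun y => ∑ i, ∑ j, M i j * (f i y * f j c)) =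
      ∑ i, ∑ j, M i j * (avg B (f i) * f j c) := by
    intro c
    rw [H550.avg_sum]
    refine Finset.sum_congr rfl fun i _ => ?_
    rw [H550.avg_sum]
    refine Finset.sum_congr rfl fun j _ => ?_
    rw [avg_mul_left, avg_mul_right]
  simp only [e2]
  rw [H550.avg_sum]
  simp only [dotProduct, mulVec, Finset.mul_sum]
  refine Finset.sum_congr rfl fun i _ => ?_
  rw [H550.avg_sum]
  refine Finset.sum_congr rfl fun j _ => ?_
  rw [avg_mul_left, avg_mul_left]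
  ring

theorem avg_cs {X : Type*} (Q : Finset X) (f g : X → ℝ) :
    (avg Q fun x => f x * g x) ^ 2 ≤ (avg Q fun x => f x ^ 2) * avg Q fun x => g x ^ 2 := by
  unfold avg
  rw [mul_pow]
  have h := Finset.sum_mul_sq_le_sq_mul_sq Q f g
  calc ((Q.card : ℝ)⁻¹) ^ 2 * (∑ x ∈ Q, f x * g x) ^ 2
      ≤ ((Q.card : ℝ)⁻¹) ^ 2 * ((∑ x ∈ Q, f x ^ 2) * ∑ x ∈ Q, g x ^ 2) :=
        mul_le_mul_of_nonneg_left h (sq_nonneg _)
    _ = _ := by ring

/-- **END value of the weighted pair functional**: `q = avg_B u G P`, C-S in the middle vertex -/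
theorem end_gap (A B C D : Finset ℤ) (G P : ℤ × ℤ × ℤ → ℝ) (u : κ → ℤ → ℤ → ℝ)
    (K : ℤ → Matrix κ κ ℝ) :
    (avg C fun z => avg A fun x => avg D fun w =>
        (fun i => avg B fun y => u i x y * (G (x, y, z) * P (y, w, z))) ⬝ᵥ (K x)⁻¹ *ᵥ
          (fun i => avg B fun y => u i x y * (G (x, y, z) * P (y, w, z)))) ^ 2 ≤
      (avg B fun c => avg B fun y => avg C fun z => (avg A fun x =>
        ((fun i => u i x y) ⬝ᵥ (K x)⁻¹ *ᵥ (fun i => u i x c)) *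
          (G (x, y, z) * G (x, c, z))) ^ 2) *
      avg B fun c => avg B fun y => avg C fun z => (avg D fun w => P (y, w, z) * P (c, w, z)) ^ 2 := by
  have e1 : ∀ z, (avg A fun x => avg D fun w =>
        (fun i => avg B fun y => u i x y * (G (x, y, z) * P (y, w, z))) ⬝ᵥ (K x)⁻¹ *ᵥ
          (fun i => avg B fun y => u i x y * (G (x, y, z) * P (y, w, z)))) =
      avg B fun c => avg B fun y => (avg A fun x =>
        ((fun i => u i x y) ⬝ᵥ (K x)⁻¹ *ᵥ (fun i => u i x c)) * (G (x, y, z) * G (x, c, z))) *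
          avg D fun w => P (y, w, z) * P (c, w, z) := by
    intro z
    have e2 : ∀ x w, (fun i => avg B fun y => u i x y * (G (x, y, z) * P (y, w, z))) ⬝ᵥ (K x)⁻¹ *ᵥ
          (fun i => avg B fun y => u i x y * (G (x, y, z) * P (y, w, z))) =
        avg B fun c => avg B fun y =>
          ((fun i => u i x y) ⬝ᵥ (K x)⁻¹ *ᵥ (fun i => u i x c)) * (G (x, y, z) * G (x, c, z)) *
            (P (y, w, z) * P (c, w, z)) := by
      intro x w
      rw [avg_form B (K x)⁻¹ fun i y => u i x y * (G (x, y, z) * P (y, w, z))]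
      refine avg_congr fun c _ => avg_congr fun y _ => ?_
      have e3 : ∀ c, (fun i => u i x c * (G (x, c, z) * P (c, w, z))) =
          (G (x, c, z) * P (c, w, z)) • fun i => u i x c := by
        intro c
        ext i
        rw [Pi.smul_apply, smul_eq_mul]
        ring
      rw [e3, e3, mulVec_smul, smul_dotProduct, dotProduct_smul]
      simp only [smul_eq_mul]
      ring
    simp only [e2]
    calc (avg A fun x => avg D fun w => avg B fun c => avg B fun y =>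
          ((fun i => u i x y) ⬝ᵥ (K x)⁻¹ *ᵥ (fun i => u i x c)) * (G (x, y, z) * G (x, c, z)) *
            (P (y, w, z) * P (c, w, z)))
        = avg A fun x => avg B fun c => avg B fun y => avg D fun w =>
          ((fun i => u i x y) ⬝ᵥ (K x)⁻¹ *ᵥ (fun i => u i x c)) * (G (x, y, z) * G (x, c, z)) *
            (P (y, w, z) * P (c, w, z)) := by
          refine avg_congr fun x _ => ?_
          rw [avg_comm D B]
          exact avg_congr fun c _ => by rw [avg_comm D B]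
      _ = avg B fun c => avg B fun y => avg A fun x => avg D fun w =>
          ((fun i => u i x y) ⬝ᵥ (K x)⁻¹ *ᵥ (fun i => u i x c)) * (G (x, y, z) * G (x, c, z)) *
            (P (y, w, z) * P (c, w, z)) := by
          rw [avg_comm A B]
          exact avg_congr fun c _ => by rw [avg_comm A B]
      _ = _ := by
          refine avg_congr fun c _ => avg_congr fun y _ => ?_
          rw [← avg_mul_right]
          exact avg_congr fun x _ => by rw [avg_mul_left]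
  simp only [e1]
  have e4 : (avg C fun z => avg B fun c => avg B fun y => (avg A fun x =>
        ((fun i => u i x y) ⬝ᵥ (K x)⁻¹ *ᵥ (fun i => u i x c)) * (G (x, y, z) * G (x, c, z))) *
          avg D fun w => P (y, w, z) * P (c, w, z)) =
      avg (B ×ˢ B ×ˢ C) fun r => (avg A fun x =>
        ((fun i => u i x r.2.1) ⬝ᵥ (K x)⁻¹ *ᵥ (fun i => u i x r.1)) *
          (G (x, r.2.1, r.2.2) * G (x, r.1, r.2.2))) *
          avg D fun w => P (r.2.1, w, r.2.2) * P (r.1, w, r.2.2) := by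
    rw [avg_comm C B, avg_prod]
    refine avg_congr fun c _ => ?_
    rw [avg_comm C B, avg_prod]
  rw [e4]
  refine (avg_cs _ _ _).trans (le_of_eq ?_)
  rw [avg_prod, avg_prod]
  congr 1
  · exact avg_congr fun c _ => by rw [avg_prod]
  · exact avg_congr fun c _ => by rw [avg_prod]

end

end Vale.Agent.P141.H971
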