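import Vale.Agent.P141.H769.Cb4

/-!
# P141, line W: (U4), the cap of a composite matrix against the operator potential

`G` is `δ`-uniform on a box `A × B × C` (edge weights `Nm e`), `u x y` a vector valued edge function,
`U x` a bound of the operator `avg_B u x y ⊗ u x y`.  The fourth Schatten power of the matrices
`((x, λ), y) ↦ u_λ (x, y) G (x, y, z)`, averaged over `z`, is at most
`δ² (avg U) (avg ‖u‖² G²)` up to small powers: it is LINEAR in the mass of `u G`.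
For a fixed center `c` it is the correlation of `G` with ONE product of edge functions,
`a (y, x) = ⟪u x y, u x c / ‖u x c‖⟫`, `b x G (x, c, z)` with `b x = ‖u x c‖`.
-/

namespace Vale.Agent.P141.H971

noncomputable section

open scoped BigOperators
open Vale.Agent.P141.PL.H315 Vale.Agent.P141.H315 Vale.Agent.P141.H550 Vale.Agent.P141.H769

/-- One center `c`: the self-improving inequality, weight `a y x * b x`. -/
theorem u4_center_aux {δ e M S b₀ : ℝ} (hδ : 0 ≤ δ) (he0 : 0 ≤ e) (he1 : e ≤ 1) (hM : 0 ≤ M)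
    (hS : 0 ≤ S) (hb₀ : 0 ≤ b₀) {A B C : Finset ℤ} (hA : A.Nonempty) {G : ℤ × ℤ × ℤ → ℝ}
    (hU : UnifBox δ e A B C G)
    (hG : ∀ x ∈ A, ∀ y ∈ B, ∀ z ∈ C, |G (x, y, z)| ≤ M) {c : ℤ} (hc : c ∈ B)
    (a : ℤ → ℤ → ℝ) (b : ℤ → ℝ) (ha : ∀ y ∈ B, ∀ x ∈ A, |a y x| ≤ S)
    (hb : ∀ x ∈ A, |b x| ≤ b₀) {n E : ℝ}
    (hn : (avg B fun y => avg A fun x => a y x ^ 2) ≤ n)
    (hE : (avg A fun x => avg C fun z => (b x * G (x, c, z)) ^ 2) ≤ E)
    {P : ℝ} (hP : P = avg B fun y => avg C fun z =>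
      (avg A fun x => a y x * b x * (G (x, y, z) * G (x, c, z))) ^ 2) :
    P ≤ δ * ((n ^ ((1 - e) / 2) * S ^ e) * (E ^ ((1 - e) / 2) * (b₀ * M) ^ e) *
      (P ^ ((1 - e) / 2) * (S * b₀ * M ^ 2) ^ e)) := by
  classical
  set h : ℤ → ℤ → ℝ := fun y z => avg A fun x => a y x * b x * (G (x, y, z) * G (x, c, z)) with hh
  let u12 : ℤ × ℤ → ℝ := fun q => a q.2 q.1
  let u13 : ℤ × ℤ → ℝ := fun q => b q.1 * G (q.1, c, q.2)
  let u23 : ℤ × ℤ → ℝ := fun q => h q.1 q.2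
  have hh_le : ∀ y ∈ B, ∀ z ∈ C, |h y z| ≤ S * b₀ * M ^ 2 := by
    intro y hy z hz
    refine abs_avg_le_of hA fun x hx => ?_
    rw [abs_mul, abs_mul, abs_mul]
    calc |a y x| * |b x| * (|G (x, y, z)| * |G (x, c, z)|) ≤ (S * b₀) * (M * M) :=
          mul_le_mul (mul_le_mul (ha y hy x hx) (hb x hx) (abs_nonneg _) hS)
            (mul_le_mul (hG x hx y hy z hz) (hG x hx c hc z hz)
            (abs_nonneg _) hM) (by positivity) (mul_nonneg hS hb₀)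
      _ = S * b₀ * M ^ 2 := by ring
  have hpair : avg (A ×ˢ B ×ˢ C) (fun q => G q * atm (u12, u13, u23) q) = P := by
    rw [hP, avg_prod]
    have e1 : ∀ x ∈ A, avg (B ×ˢ C) (fun q => G (x, q) * atm (u12, u13, u23) (x, q)) =
        avg B fun y => avg C fun z => G (x, y, z) * atm (u12, u13, u23) (x, y, z) := by
      intro x _
      rw [avg_prod]
    rw [avg_congr e1, avg_comm]
    refine avg_congr fun y _ => ?_
    rw [avg_comm]
    refine avg_congr fun z _ => ?_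
    have e3 : ∀ x ∈ A, G (x, y, z) * atm (u12, u13, u23) (x, y, z) =
        h y z * (a y x * b x * (G (x, y, z) * G (x, c, z))) := by
      intro x _
      simp only [atm, e12, e13, e23, u12, u13, u23]
      ring
    rw [avg_congr e3, avg_mul_left]
    show h y z * h y z = h y z ^ 2
    ring
  have hN12 : Nm e (A ×ˢ B) u12 ≤ n ^ ((1 - e) / 2) * S ^ e := by
    refine Nm_le he0 he1 hS ?_ ?_
    · rw [avg_prod, avg_comm]; exact hn
    · rintro ⟨x, y⟩ hq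
      rw [Finset.mem_product] at hq
      exact ha y hq.2 x hq.1
  have hN13 : Nm e (A ×ˢ C) u13 ≤ E ^ ((1 - e) / 2) * (b₀ * M) ^ e := by
    refine Nm_le he0 he1 (mul_nonneg hb₀ hM) ?_ ?_
    · rw [avg_prod]; exact hE
    · rintro ⟨x, z⟩ hq
      rw [Finset.mem_product] at hq
      show |b x * G (x, c, z)| ≤ b₀ * M
      rw [abs_mul]
      exact mul_le_mul (hb x hq.1) (hG x hq.1 c hc z hq.2) (abs_nonneg _) hb₀
  have hN23 : Nm e (B ×ˢ C) u23 ≤ P ^ ((1 - e) / 2) * (S * b₀ * M ^ 2) ^ e := by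
    refine Nm_le he0 he1 (by positivity) ?_ ?_
    · rw [avg_prod, hP]
    · rintro ⟨y, z⟩ hq
      rw [Finset.mem_product] at hq
      exact hh_le y hq.1 z hq.2
  have hu := hU (u12, u13, u23)
  rw [hpair] at hu
  refine (le_abs_self _).trans (hu.trans ?_)
  refine mul_le_mul_of_nonneg_left ?_ hδ
  have p1 := Nm_nonneg e (A ×ˢ B) u12
  have p2 := Nm_nonneg e (A ×ˢ C) u13
  have p3 := Nm_nonneg e (B ×ˢ C) u23
  exact mul_le_mul (mul_le_mul hN12 hN13 p2 (p1.trans hN12)) hN23 p3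
    (mul_nonneg (p1.trans hN12) (p2.trans hN13))

/-- **U4**, one center `c`: `P ^ (1 + e) ≤ δ² (n E)^(1-e) (S² b₀² M³)^(2e)`. -/
theorem u4_center_pow {δ e M S b₀ : ℝ} (hδ : 0 ≤ δ) (he0 : 0 ≤ e) (he1 : e ≤ 1) (hM : 0 ≤ M)
    (hS : 0 ≤ S) (hb₀ : 0 ≤ b₀) {A B C : Finset ℤ} (hA : A.Nonempty) {G : ℤ × ℤ × ℤ → ℝ}
    (hU : UnifBox δ e A B C G)
    (hG : ∀ x ∈ A, ∀ y ∈ B, ∀ z ∈ C, |G (x, y, z)| ≤ M) {c : ℤ} (hc : c ∈ B)
    (a : ℤ → ℤ → ℝ) (b : ℤ → ℝ) (ha : ∀ y ∈ B, ∀ x ∈ A, |a y x| ≤ S)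
    (hb : ∀ x ∈ A, |b x| ≤ b₀) {n E : ℝ}
    (hn : (avg B fun y => avg A fun x => a y x ^ 2) ≤ n)
    (hE : (avg A fun x => avg C fun z => (b x * G (x, c, z)) ^ 2) ≤ E) :
    (avg B fun y => avg C fun z =>
      (avg A fun x => a y x * b x * (G (x, y, z) * G (x, c, z))) ^ 2) ^ (1 + e) ≤
      δ ^ 2 * (n * E) ^ (1 - e) * ((S * b₀) ^ 2 * M ^ 3) ^ (2 * e) := by
  set P : ℝ := avg B fun y => avg C fun z =>
      (avg A fun x => a y x * b x * (G (x, y, z) * G (x, c, z))) ^ 2 with hP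
  have hP0 : 0 ≤ P := avg_nonneg fun _ _ => avg_nonneg fun _ _ => sq_nonneg _
  have hn0 : 0 ≤ n := (avg_nonneg fun _ _ => avg_nonneg fun _ _ => sq_nonneg _).trans hn
  have hE0 : 0 ≤ E := (avg_nonneg fun _ _ => avg_nonneg fun _ _ => sq_nonneg _).trans hE
  have hrhs : 0 ≤ δ ^ 2 * (n * E) ^ (1 - e) * ((S * b₀) ^ 2 * M ^ 3) ^ (2 * e) := by positivity
  rcases hP0.eq_or_lt with h0 | hpos
  · rw [← h0, Real.zero_rpow (by linarith)]; exact hrhs
  have key := u4_center_aux hδ he0 he1 hM hS hb₀ hA hU hG hc a b ha hb hn hE hP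
  set Z : ℝ := δ * ((n ^ ((1 - e) / 2) * S ^ e) * (E ^ ((1 - e) / 2) * (b₀ * M) ^ e) *
      (S * b₀ * M ^ 2) ^ e) with hZ
  have hZ0 : 0 ≤ Z := by positivity
  have key2 : P ≤ Z * P ^ ((1 - e) / 2) := by
    calc P ≤ _ := key
      _ = _ := by rw [hZ]; ring
  have hq : 0 < P ^ ((1 - e) / 2) := Real.rpow_pos_of_pos hpos _
  have key3 : P ^ ((1 + e) / 2) ≤ Z := by
    have h1 : P = P ^ ((1 + e) / 2) * P ^ ((1 - e) / 2) := by
      rw [← Real.rpow_add hpos]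
      have : (1 + e) / 2 + (1 - e) / 2 = 1 := by ring
      rw [this, Real.rpow_one]
    have h2 : P ^ ((1 + e) / 2) * P ^ ((1 - e) / 2) ≤ Z * P ^ ((1 - e) / 2) := by
      rw [← h1]; exact key2
    exact le_of_mul_le_mul_right h2 hq
  have h3 : P ^ (1 + e) = (P ^ ((1 + e) / 2)) ^ 2 := by
    rw [← Real.rpow_natCast, ← Real.rpow_mul hP0]
    congr 1; push_cast; ring
  rw [h3]
  refine (pow_le_pow_left₀ (Real.rpow_nonneg hP0 _) key3 2).trans (le_of_eq ?_)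
  have e1 : ∀ a : ℝ, 0 ≤ a → (a ^ ((1 - e) / 2)) ^ 2 = a ^ (1 - e) := by
    intro a ha
    rw [← Real.rpow_natCast, ← Real.rpow_mul ha]
    congr 1; push_cast; ring
  have e2 : ∀ a : ℝ, 0 ≤ a → (a ^ e) ^ 2 = a ^ (2 * e) := by
    intro a ha
    rw [← Real.rpow_natCast, ← Real.rpow_mul ha]
    congr 1; push_cast; ring
  have hbM : 0 ≤ b₀ * M := mul_nonneg hb₀ hM
  have hSb : 0 ≤ S * b₀ * M ^ 2 := by positivity
  rw [hZ, Real.mul_rpow hn0 hE0]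
  have e3 : (S * b₀) ^ 2 * M ^ 3 = S * (b₀ * M) * (S * b₀ * M ^ 2) := by ring
  rw [e3, Real.mul_rpow (mul_nonneg hS hbM) hSb, Real.mul_rpow hS hbM]
  rw [← e1 n hn0, ← e1 E hE0, ← e2 S hS, ← e2 (b₀ * M) hbM, ← e2 (S * b₀ * M ^ 2) hSb]
  ring

/-- **U4**, one center `c`, linear form. -/
theorem u4_center {δ e M S b₀ κ : ℝ} (hδ : 0 ≤ δ) (he0 : 0 ≤ e) (he1 : e ≤ 1) (hM : 0 ≤ M)
    (hS : 0 ≤ S) (hb₀ : 0 ≤ b₀) (hκ : 0 < κ) {A B C : Finset ℤ} (hA : A.Nonempty)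
    {G : ℤ × ℤ × ℤ → ℝ} (hU : UnifBox δ e A B C G)
    (hG : ∀ x ∈ A, ∀ y ∈ B, ∀ z ∈ C, |G (x, y, z)| ≤ M) {c : ℤ} (hc : c ∈ B)
    (a : ℤ → ℤ → ℝ) (b : ℤ → ℝ) (ha : ∀ y ∈ B, ∀ x ∈ A, |a y x| ≤ S)
    (hb : ∀ x ∈ A, |b x| ≤ b₀) {n E : ℝ}
    (hn : (avg B fun y => avg A fun x => a y x ^ 2) ≤ n)
    (hE : (avg A fun x => avg C fun z => (b x * G (x, c, z)) ^ 2) ≤ E) :
    (avg B fun y => avg C fun z =>
      (avg A fun x => a y x * b x * (G (x, y, z) * G (x, c, z))) ^ 2) ≤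
      cbT δ e M (S * b₀) κ * (n * E) + cbErr δ e M (S * b₀) κ := by
  set P : ℝ := avg B fun y => avg C fun z =>
      (avg A fun x => a y x * b x * (G (x, y, z) * G (x, c, z))) ^ 2 with hP
  have hP0 : 0 ≤ P := avg_nonneg fun _ _ => avg_nonneg fun _ _ => sq_nonneg _
  have hn0 : 0 ≤ n := (avg_nonneg fun _ _ => avg_nonneg fun _ _ => sq_nonneg _).trans hn
  have hE0 : 0 ≤ E := (avg_nonneg fun _ _ => avg_nonneg fun _ _ => sq_nonneg _).trans hE
  have key := u4_center_pow hδ he0 he1 hM hS hb₀ hA hU hG hc a b ha hb hn hE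
  rw [← hP] at key
  have h1e : 0 < 1 + e := by linarith
  have h1 : P = (P ^ (1 + e)) ^ (1 / (1 + e)) := by
    rw [← Real.rpow_mul hP0, mul_one_div_cancel h1e.ne', Real.rpow_one]
  have hnE : 0 ≤ n * E := mul_nonneg hn0 hE0
  have h2 : P ≤ (δ ^ 2 * (n * E) ^ (1 - e) * ((S * b₀) ^ 2 * M ^ 3) ^ (2 * e)) ^
      (1 / (1 + e)) := by
    rw [h1]
    exact Real.rpow_le_rpow (Real.rpow_nonneg hP0 _) key (by positivity)
  have h3 : (δ ^ 2 * (n * E) ^ (1 - e) * ((S * b₀) ^ 2 * M ^ 3) ^ (2 * e)) ^ (1 / (1 + e)) =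
      (δ ^ 2 * ((S * b₀) ^ 2 * M ^ 3) ^ (2 * e)) ^ (1 / (1 + e)) *
        (n * E) ^ ((1 - e) / (1 + e)) := by
    have : δ ^ 2 * (n * E) ^ (1 - e) * ((S * b₀) ^ 2 * M ^ 3) ^ (2 * e) =
        (δ ^ 2 * ((S * b₀) ^ 2 * M ^ 3) ^ (2 * e)) * (n * E) ^ (1 - e) := by ring
    rw [this, Real.mul_rpow (by positivity) (by positivity), ← Real.rpow_mul hnE]
    congr 2; ring
  rw [h3] at h2
  have hθ0 : 0 ≤ (1 - e) / (1 + e) := div_nonneg (by linarith) h1e.le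
  have hθ1 : (1 - e) / (1 + e) ≤ 1 := by rw [div_le_one h1e]; linarith
  have h4 := rpow_le_lin hnE hκ hθ0 hθ1
  have h5 : (1 - e) / (1 + e) - 1 = -(2 * e / (1 + e)) := by field_simp; ring
  rw [h5] at h4
  have hD : 0 ≤ (δ ^ 2 * ((S * b₀) ^ 2 * M ^ 3) ^ (2 * e)) ^ (1 / (1 + e)) := by positivity
  calc P ≤ _ := h2
    _ ≤ (δ ^ 2 * ((S * b₀) ^ 2 * M ^ 3) ^ (2 * e)) ^ (1 / (1 + e)) *
        (κ ^ (-(2 * e / (1 + e))) * (n * E) + κ ^ ((1 - e) / (1 + e))) :=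
        mul_le_mul_of_nonneg_left h4 hD
    _ = _ := by unfold cbT cbErr; ring

/-- **(U4)**: vector valued edge function `u x y`, `U x` bounds the operator `avg_B u x y ⊗ u x y`.
The fourth Schatten power of the matrices `((x, λ), y) ↦ u_λ (x, y) G (x, y, z)`, averaged over
`z`, is at most `cbT` (`= δ ^ (2 - O(e))`) times `avg U` times the mass of `u G`. -/
theorem u4 {V : Type*} [NormedAddCommGroup V] [InnerProductSpace ℝ V]
    {δ e M b₀ κ : ℝ} (hδ : 0 ≤ δ) (he0 : 0 ≤ e) (he1 : e ≤ 1) (hM : 0 ≤ M)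
    (hb₀ : 0 ≤ b₀) (hκ : 0 < κ) {A B C : Finset ℤ} (hA : A.Nonempty) (hB : B.Nonempty)
    {G : ℤ × ℤ × ℤ → ℝ} (hU : UnifBox δ e A B C G)
    (hG : ∀ x ∈ A, ∀ y ∈ B, ∀ z ∈ C, |G (x, y, z)| ≤ M)
    (u : ℤ → ℤ → V) (hu : ∀ x ∈ A, ∀ y ∈ B, ‖u x y‖ ≤ b₀) (U : ℤ → ℝ)
    (hop : ∀ x ∈ A, ∀ v : V, (avg B fun y => (inner ℝ (u x y) v) ^ 2) ≤ U x * ‖v‖ ^ 2)
    (hU0 : ∀ x ∈ A, 0 ≤ U x) :
    (avg B fun c => avg B fun y => avg C fun z =>
      (avg A fun x => inner ℝ (u x y) (u x c) * (G (x, y, z) * G (x, c, z))) ^ 2) ≤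
      cbT δ e M (b₀ * b₀) κ * (avg A U *
        avg B fun c => avg A fun x => avg C fun z => ‖u x c‖ ^ 2 * G (x, c, z) ^ 2) +
      cbErr δ e M (b₀ * b₀) κ := by
  classical
  have hone : ∀ c ∈ B, (avg B fun y => avg C fun z =>
      (avg A fun x => inner ℝ (u x y) (u x c) * (G (x, y, z) * G (x, c, z))) ^ 2) ≤
      cbT δ e M (b₀ * b₀) κ * (avg A U *
        (avg A fun x => avg C fun z => ‖u x c‖ ^ 2 * G (x, c, z) ^ 2)) +
      cbErr δ e M (b₀ * b₀) κ := by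
    intro c hc
    set b : ℤ → ℝ := fun x => ‖u x c‖ with hbdef
    set a : ℤ → ℤ → ℝ := fun y x => inner ℝ (u x y) (‖u x c‖⁻¹ • u x c) with hadef
    have hnorm : ∀ x, ‖(‖u x c‖⁻¹ • u x c)‖ ≤ 1 := by
      intro x
      by_cases h0 : ‖u x c‖ = 0
      · rw [h0]; simp
      · rw [norm_smul, norm_inv, norm_norm, inv_mul_cancel₀ h0]
    have hab : ∀ y x, a y x * b x = inner ℝ (u x y) (u x c) := by
      intro y x
      simp only [hadef, hbdef]
      by_cases h0 : ‖u x c‖ = 0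
      · rw [h0, mul_zero]
        rw [norm_eq_zero] at h0
        rw [h0, inner_zero_right]
      · rw [inner_smul_right]
        field_simp
    have ha : ∀ y ∈ B, ∀ x ∈ A, |a y x| ≤ b₀ := by
      intro y hy x hx
      refine (abs_real_inner_le_norm _ _).trans ?_
      calc ‖u x y‖ * ‖(‖u x c‖⁻¹ • u x c)‖ ≤ b₀ * 1 :=
            mul_le_mul (hu x hx y hy) (hnorm x) (norm_nonneg _) hb₀
        _ = b₀ := mul_one _
    have hb : ∀ x ∈ A, |b x| ≤ b₀ := by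
      intro x hx
      simp only [hbdef, abs_norm]
      exact hu x hx c hc
    have hn : (avg B fun y => avg A fun x => a y x ^ 2) ≤ avg A U := by
      rw [avg_comm]
      refine avg_mono fun x hx => ?_
      refine (hop x hx _).trans ?_
      have h1 : ‖(‖u x c‖⁻¹ • u x c)‖ ^ 2 ≤ 1 := pow_le_one₀ (norm_nonneg _) (hnorm x)
      calc U x * ‖(‖u x c‖⁻¹ • u x c)‖ ^ 2 ≤ U x * 1 :=
            mul_le_mul_of_nonneg_left h1 (hU0 x hx)
        _ = U x := mul_one _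
    have hE : (avg A fun x => avg C fun z => (b x * G (x, c, z)) ^ 2) ≤
        avg A fun x => avg C fun z => ‖u x c‖ ^ 2 * G (x, c, z) ^ 2 := by
      refine avg_mono fun x _ => avg_mono fun z _ => le_of_eq ?_
      simp only [hbdef]
      ring
    have key := u4_center hδ he0 he1 hM hb₀ hb₀ hκ hA hU hG hc a b ha hb hn hE
    have e1 : (avg B fun y => avg C fun z =>
        (avg A fun x => a y x * b x * (G (x, y, z) * G (x, c, z))) ^ 2) =
        avg B fun y => avg C fun z =>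
        (avg A fun x => inner ℝ (u x y) (u x c) * (G (x, y, z) * G (x, c, z))) ^ 2 := by
      refine avg_congr fun y _ => avg_congr fun z _ => ?_
      congr 1
      refine avg_congr fun x _ => ?_
      rw [hab]
    rw [e1] at key
    exact key
  calc _ ≤ avg B (fun c => cbT δ e M (b₀ * b₀) κ * (avg A U *
        (avg A fun x => avg C fun z => ‖u x c‖ ^ 2 * G (x, c, z) ^ 2)) +
        cbErr δ e M (b₀ * b₀) κ) := avg_mono hone
    _ = _ := by rw [avg_add, avg_mul_left, avg_mul_left, avg_const hB]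

end

end Vale.Agent.P141.H971
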